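import Vale.Agent.P235.K5.H281.Fin
import Vale.Agent.P235.K5.W.H246.Touch

set_option linter.all false

/-!
# Quasi-4-connected minors (helper281)

Every connected graph is a spanning subgraph of a sum, over cliques with at most three vertices, of
quasi-4-connected minors and graphs with at most four vertices.
-/

namespace Vale.Agent.P235.K5.H281

open SimpleGraph Vale.Agent.P235.K5 Vale.Agent.P235.H134 Vale.Agent.P235.H56
open Vale.Agent.P235.K5.W

/-- a separation of order three: the vertices `r 0, r 1, r 2`, the sides `C` and `D` -/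
structure Sep3 {V : Type} (G : SimpleGraph V) (r : Fin 3 → V) (C D : Set V) : Prop where
  disj : Disjoint C D
  offC : ∀ i, r i ∉ C
  offD : ∀ i, r i ∉ D
  cover : ∀ v, v ∈ C ∨ v ∈ D ∨ ∃ i, v = r i
  no : ∀ u ∈ C, ∀ v ∈ D, ¬ G.Adj u v

/-- quasi-4-connected: 3-connected, and one side of every separation of order three has at most
one vertex -/
def Quasi4 {V : Type} (G : SimpleGraph V) : Prop :=
  Conn3 G ∧ ∀ (r : Fin 3 → V) (C D : Set V), Sep3 G r C D → C.ncard ≤ 1 ∨ D.ncard ≤ 1

theorem conn3_iso {V W : Type} {G : SimpleGraph V} {H : SimpleGraph W} (e : G ≃g H)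
    (h : Conn3 G) : Conn3 H := by
  intro s t C hC hs ht hN y
  obtain ⟨c, hc⟩ := hC
  have := h (e.symm s) (e.symm t) (e ⁻¹' C) ⟨e.symm c, by simpa using hc⟩ (by simpa using hs)
    (by simpa using ht) (fun u hu v huv => ?_) (e.symm y)
  · rcases this with h1 | h1 | h1
    · left; simpa using h1
    · right; left; exact e.symm.injective h1
    · right; right; exact e.symm.injective h1
  · rcases hN (e u) hu (e v) (e.map_adj_iff.2 huv) with h1 | h1 | h1
    · exact Or.inl h1
    · right; left; rw [← h1]; simp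
    · right; right; rw [← h1]; simp

theorem Quasi4.iso {V W : Type} {G : SimpleGraph V} {H : SimpleGraph W} (e : G ≃g H)
    (h : Quasi4 G) : Quasi4 H := by
  refine ⟨conn3_iso e h.1, fun r C D hs => ?_⟩
  have hcard : ∀ A : Set W, (e ⁻¹' A).ncard = A.ncard := by
    intro A
    have h1 : e.symm '' A = e ⁻¹' A := by
      ext v
      constructor
      · rintro ⟨w, hw, rfl⟩
        simpa using hw
      · intro hv
        exact ⟨e v, hv, by simp⟩
    rw [← h1, Set.ncard_image_of_injective _ e.symm.injective]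
  have := h.2 (fun i => e.symm (r i)) (e ⁻¹' C) (e ⁻¹' D) ⟨?_, ?_, ?_, ?_, ?_⟩
  · rwa [hcard, hcard] at this
  · rw [Set.disjoint_left]
    intro v hv hv'
    exact Set.disjoint_left.1 hs.disj hv hv'
  · intro i
    simpa using hs.offC i
  · intro i
    simpa using hs.offD i
  · intro v
    rcases hs.cover (e v) with h1 | h1 | ⟨i, h1⟩
    · exact Or.inl h1
    · exact Or.inr (Or.inl h1)
    · refine Or.inr (Or.inr ⟨i, ?_⟩)
      show v = e.symm (r i)
      rw [← h1]
      simp
  · intro u hu v hv huv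
    exact hs.no (e u) hu (e v) hv (e.map_adj_iff.2 huv)

theorem minor_iso {V W : Type} {G : SimpleGraph V} {H : SimpleGraph W} (e : G ≃g H) :
    IsMinor H G := by
  refine ⟨fun w => {e.symm w}, fun w => conn_single _ _, fun a b hab => ?_, fun a b hab => ?_⟩
  · rw [Set.disjoint_singleton]
    exact fun h => hab (e.symm.injective h)
  · exact ⟨_, rfl, _, rfl, e.symm.map_adj_iff.2 hab⟩

/-- three connected sets rooted at `r 0, r 1, r 2`, pairwise adjacent, otherwise inside `D` -/
structure Tripod {V : Type} (G : SimpleGraph V) (r : Fin 3 → V) (D : Set V)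
    (E : Fin 3 → Set V) : Prop where
  root : ∀ i, r i ∈ E i
  sub : ∀ i, ∀ v ∈ E i, v = r i ∨ v ∈ D
  conn : ∀ i, (G.induce (E i)).Connected
  disj : ∀ i j, i ≠ j → Disjoint (E i) (E j)
  adj : ∀ i j, i ≠ j → ∃ u ∈ E i, ∃ v ∈ E j, G.Adj u v

theorem minorE {V : Type} {G : SimpleGraph V} {r : Fin 3 → V} (hr : Function.Injective r)
    {D X : Set V} {E : Fin 3 → Set V} (hE : Tripod G r D E) (hDX : Disjoint D X) :
    IsMinor ((G ⊔ clq (Set.range r)).induce X) G := by
  set μ : X → Set V := fun x => {w | w = x.1 ∨ ∃ i, x.1 = r i ∧ w ∈ E i} with hμ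
  have m1 : ∀ (x : X) (i : Fin 3), x.1 = r i → μ x = E i := by
    intro x i hxi
    ext w
    constructor
    · rintro (h | ⟨j, hj, h⟩)
      · rw [h, hxi]; exact hE.root i
      · have : j = i := hr (hj.symm.trans hxi)
        rw [← this]; exact h
    · intro h
      exact Or.inr ⟨i, hxi, h⟩
  have m2 : ∀ x : X, (¬ ∃ i, x.1 = r i) → μ x = {x.1} := by
    intro x hx
    ext w
    constructor
    · rintro (h | ⟨j, hj, _⟩)
      · exact h
      · exact absurd ⟨j, hj⟩ hx
    · intro h
      exact Or.inl h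
  have offD : ∀ x : X, x.1 ∉ D := fun x h => Set.disjoint_left.1 hDX h x.2
  refine ⟨μ, fun x => ?_, fun x y hxy => ?_, fun x y hxy => ?_⟩
  · by_cases hx : ∃ i, x.1 = r i
    · obtain ⟨i, hi⟩ := hx
      rw [m1 x i hi]
      exact hE.conn i
    · rw [m2 x hx]
      exact conn_single G x.1
  · have hne : x.1 ≠ y.1 := fun e => hxy (Subtype.ext e)
    rw [Set.disjoint_left]
    rintro w (h | ⟨i, hi, h⟩) (h' | ⟨j, hj, h'⟩)
    · exact hne (h.symm.trans h')
    · rcases hE.sub j w h' with h1 | h1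
      · exact hne (h.symm.trans (h1.trans hj.symm))
      · exact offD x (h ▸ h1)
    · rcases hE.sub i w h with h1 | h1
      · exact hne (hi.trans (h1.symm.trans h'))
      · exact offD y (h' ▸ h1)
    · have hij : i ≠ j := fun e => hne (hi.trans ((congrArg r e).trans hj.symm))
      exact Set.disjoint_left.1 (hE.disj i j hij) h h'
  · rcases hxy with h | ⟨hne, ⟨i, hi⟩, ⟨j, hj⟩⟩
    · exact ⟨x.1, Or.inl rfl, y.1, Or.inl rfl, h⟩
    · have hij : i ≠ j := by
        rintro rfl
        exact hne (hi.symm.trans hj)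
      rw [m1 x i hi.symm, m1 y j hj.symm]
      exact hE.adj i j hij

/-- a connected set which meets a closed set lies in it -/
theorem conn_sub {V : Type} {G : SimpleGraph V} {D K L : Set V} (hL : (G.induce L).Connected)
    (hLD : L ⊆ D) (hK : ∀ u ∈ K, ∀ v, G.Adj u v → v ∈ D → v ∈ K) {v : V} (hv : v ∈ L)
    (hv' : v ∈ K) : L ⊆ K := by
  have h1 := ((H246.cc_iff L).1 hL).2 (L ∩ K) Set.inter_subset_left ⟨v, hv, hv'⟩
    fun u hu w hw huw => ⟨hw, hK u hu.2 w huw (hLD hw)⟩
  exact fun w hw => (h1 hw).2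

theorem pick : ∀ p q : Fin 3 → Bool, (∀ i, p i = true ∨ q i = true) →
    (∃ i j, i ≠ j ∧ p i = true ∧ p j = true) → (∃ i j, i ≠ j ∧ q i = true ∧ q j = true) →
    ∃ a b c : Fin 3, a ≠ b ∧ a ≠ c ∧ b ≠ c ∧ p a = true ∧ p b = true ∧ q b = true ∧
      q c = true := by decide

theorem other2 : ∀ i : Fin 3, ∃ j k : Fin 3, j ≠ i ∧ k ≠ i ∧ j ≠ k := by decide

theorem other1 : ∀ i : Fin 3, ∃ j : Fin 3, j ≠ i := by decide

theorem third : ∀ i j : Fin 3, i ≠ j → ∃ k : Fin 3, ∀ l, l = i ∨ l = j ∨ l = k := by decide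

theorem all3 : ∀ a b c : Fin 3, a ≠ b → a ≠ c → b ≠ c → ∀ i : Fin 3, i = a ∨ i = b ∨ i = c := by
  decide

theorem fatE {V : Type} {G : SimpleGraph V} {r : Fin 3 → V} (hr : Function.Injective r)
    {D P Q : Set V} (hD : ∀ i, r i ∉ D) (hP : (G.induce P).Connected)
    (hQ : (G.induce Q).Connected) (hPD : P ⊆ D) (hQD : Q ⊆ D) (hPQ : Disjoint P Q)
    {a b c : Fin 3} (hab : a ≠ b) (hac : a ≠ c) (hbc : b ≠ c)
    (pa : ∃ u ∈ P, G.Adj u (r a)) (pb : ∃ u ∈ P, G.Adj u (r b)) (qb : ∃ u ∈ Q, G.Adj u (r b))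
    (qc : ∃ u ∈ Q, G.Adj u (r c))
    (hpq : ∃ u ∈ insert (r a) P, ∃ v ∈ insert (r c) Q, G.Adj u v) :
    ∃ E, Tripod G r D E := by
  classical
  set E : Fin 3 → Set V := fun i =>
    if i = a then insert (r a) P else if i = c then insert (r c) Q else {r i} with hE
  have Ea : E a = insert (r a) P := by simp [hE]
  have Ec : E c = insert (r c) Q := by simp [hE, Ne.symm hac]
  have Eb : E b = {r b} := by simp [hE, Ne.symm hab, hbc]
  have off : ∀ i, ∀ v ∈ P ∪ Q, v ≠ r i := by
    rintro i v (hv | hv) rfl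
    · exact hD i (hPD hv)
    · exact hD i (hQD hv)
  have all := all3 a b c hab hac hbc
  have dab : Disjoint (E a) (E b) := by
    rw [Ea, Eb, Set.disjoint_left]
    rintro v (h | h) h'
    · exact hab (hr (h.symm.trans h'))
    · exact off b v (Or.inl h) h'
  have dcb : Disjoint (E c) (E b) := by
    rw [Ec, Eb, Set.disjoint_left]
    rintro v (h | h) h'
    · exact hbc (hr (h.symm.trans h')).symm
    · exact off b v (Or.inr h) h'
  have dac : Disjoint (E a) (E c) := by
    rw [Ea, Ec, Set.disjoint_left]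
    rintro v (h | h) (h' | h')
    · exact hac (hr (h.symm.trans h'))
    · exact off a v (Or.inr h') h
    · exact off c v (Or.inl h) h'
    · exact Set.disjoint_left.1 hPQ h h'
  have tab : ∃ u ∈ E a, ∃ v ∈ E b, G.Adj u v := by
    obtain ⟨u, hu, h⟩ := pb
    exact ⟨u, by rw [Ea]; exact Or.inr hu, r b, by rw [Eb]; rfl, h⟩
  have tcb : ∃ u ∈ E c, ∃ v ∈ E b, G.Adj u v := by
    obtain ⟨u, hu, h⟩ := qb
    exact ⟨u, by rw [Ec]; exact Or.inr hu, r b, by rw [Eb]; rfl, h⟩
  have tac : ∃ u ∈ E a, ∃ v ∈ E c, G.Adj u v := by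
    rw [Ea, Ec]; exact hpq
  have flip : ∀ i j, (∃ u ∈ E i, ∃ v ∈ E j, G.Adj u v) → ∃ u ∈ E j, ∃ v ∈ E i, G.Adj u v := by
    rintro i j ⟨u, hu, v, hv, h⟩
    exact ⟨v, hv, u, hu, h.symm⟩
  refine ⟨E, ⟨fun i => ?_, fun i v hv => ?_, fun i => ?_, fun i j hij => ?_, fun i j hij => ?_⟩⟩
  · rcases all i with rfl | rfl | rfl
    · rw [Ea]; exact Or.inl rfl
    · rw [Eb]; rfl
    · rw [Ec]; exact Or.inl rfl
  · rcases all i with rfl | rfl | rfl
    · rw [Ea] at hv; exact hv.imp_right fun h => hPD h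
    · rw [Eb] at hv; exact Or.inl hv
    · rw [Ec] at hv; exact hv.imp_right fun h => hQD h
  · rcases all i with rfl | rfl | rfl
    · rw [Ea]; exact conn_insert hP pa
    · rw [Eb]; exact conn_single G _
    · rw [Ec]; exact conn_insert hQ qc
  · rcases all i with rfl | rfl | rfl <;> rcases all j with rfl | rfl | rfl
    · exact absurd rfl hij
    · exact dab
    · exact dac
    · exact dab.symm
    · exact absurd rfl hij
    · exact dcb.symm
    · exact dac.symm
    · exact dcb
    · exact absurd rfl hij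
  · rcases all i with rfl | rfl | rfl <;> rcases all j with rfl | rfl | rfl
    · exact absurd rfl hij
    · exact tab
    · exact tac
    · exact flip _ _ tab
    · exact absurd rfl hij
    · exact flip _ _ tcb
    · exact flip _ _ tac
    · exact tcb
    · exact absurd rfl hij

/-- every closed connected part behind three vertices touches all of them -/
theorem touchAll {V : Type} {G : SimpleGraph V} (h3 : Conn3 G) {r : Fin 3 → V}
    (hr : Function.Injective r) {D K : Set V} (hD : ∀ i, r i ∉ D)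
    (hcl : ∀ u ∈ D, ∀ v, G.Adj u v → v ∈ D ∨ ∃ i, v = r i) (hKD : K ⊆ D) (hne : K.Nonempty)
    (hK : ∀ u ∈ K, ∀ v, G.Adj u v → v ∈ D → v ∈ K) (i : Fin 3) : ∃ u ∈ K, G.Adj u (r i) := by
  by_contra hno
  obtain ⟨j, k, hji, hki, hjk⟩ := other2 i
  have all := all3 i j k (Ne.symm hji) (Ne.symm hki) hjk
  have hN : ∀ u ∈ K, ∀ v, G.Adj u v → v ∈ K ∨ v = r j ∨ v = r k := by
    intro u hu v huv
    rcases hcl u (hKD hu) v huv with h | ⟨l, h⟩
    · exact Or.inl (hK u hu v huv h)
    · rcases all l with rfl | rfl | rfl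
      · exact absurd ⟨u, hu, h ▸ huv⟩ hno
      · exact Or.inr (Or.inl h)
      · exact Or.inr (Or.inr h)
  rcases h3 (r j) (r k) K hne (fun h => hD j (hKD h)) (fun h => hD k (hKD h)) hN (r i) with
    h | h | h
  · exact hD i (hKD h)
  · exact hji (hr h).symm
  · exact hki (hr h).symm

/-- **A triangle rooted at the three vertices**, if the side has at least two vertices. -/
theorem tripod {V : Type} [Finite V] {G : SimpleGraph V} (h3 : Conn3 G) {r : Fin 3 → V}
    (hr : Function.Injective r) {D : Set V} (hD : ∀ i, r i ∉ D)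
    (hcl : ∀ u ∈ D, ∀ v, G.Adj u v → v ∈ D ∨ ∃ i, v = r i) (h2 : 2 ≤ D.ncard) :
    ∃ E, Tripod G r D E := by
  classical
  obtain ⟨d, hd⟩ : D.Nonempty := by
    rw [← Set.ncard_pos]; omega
  obtain ⟨K, hdK, hKD, hK, hKcl⟩ := comp (G := G) hd
  have tK := touchAll h3 hr hD hcl hKD ⟨d, hdK⟩ hKcl
  by_cases hKeq : K = D
  · rw [hKeq] at hK tK
    rcases H246.trichotomy (X := D) hK (fun i => {r i}) (fun i => by
      obtain ⟨u, hu, h⟩ := tK i
      exact ⟨u, hu, r i, rfl, h⟩) with ⟨P, Q, hPQ, hdis, hP, hQ, hp, hq⟩ |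
        ⟨Y, hY, hYd, hYc, hYa, hYt⟩ | ⟨h, hh, hub⟩
    · -- fat
      have hPD : P ⊆ D := hPQ ▸ Set.subset_union_left
      have hQD : Q ⊆ D := hPQ ▸ Set.subset_union_right
      have tch : ∀ (Z : Set V) (i : Fin 3), H531.Tch G Z {r i} → ∃ u ∈ Z, G.Adj u (r i) := by
        rintro Z i ⟨u, hu, v, hv, h⟩
        rw [Set.mem_singleton_iff] at hv
        exact ⟨u, hu, hv ▸ h⟩
      obtain ⟨a, b, c, hab, hac, hbc, pa, pb, qb, qc⟩ :=
        pick (fun i => decide (∃ u ∈ P, G.Adj u (r i))) (fun i => decide (∃ u ∈ Q, G.Adj u (r i)))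
          (fun i => by
            obtain ⟨u, hu, h⟩ := tK i
            rw [← hPQ] at hu
            rcases hu with hu | hu
            · left; exact decide_eq_true ⟨u, hu, h⟩
            · right; exact decide_eq_true ⟨u, hu, h⟩)
          (by
            obtain ⟨i, j, hij, hi, hj⟩ := hp
            exact ⟨i, j, hij, decide_eq_true (tch P i hi), decide_eq_true (tch P j hj)⟩)
          (by
            obtain ⟨i, j, hij, hi, hj⟩ := hq
            exact ⟨i, j, hij, decide_eq_true (tch Q i hi), decide_eq_true (tch Q j hj)⟩)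
      refine fatE hr hD hP hQ hPD hQD hdis hab hac hbc (of_decide_eq_true pa)
        (of_decide_eq_true pb) (of_decide_eq_true qb) (of_decide_eq_true qc) ?_
      -- `P` and `Q` touch
      by_contra hno
      obtain ⟨p, hp'⟩ := (hP.nonempty : Nonempty P)
      obtain ⟨q, hq'⟩ := (hQ.nonempty : Nonempty Q)
      have h1 := conn_sub (D := D) (K := P) hK subset_rfl (fun u hu v huv hv => by
        rw [← hPQ] at hv
        rcases hv with hv | hv
        · exact hv
        · exact absurd ⟨u, Or.inr hu, v, Or.inr hv, huv⟩ hno) (hPD hp') hp'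
      exact Set.disjoint_left.1 hdis (h1 (hQD hq')) hq'
    · -- triangle
      have hYD : ∀ i, Y i ⊆ D := fun i => by rw [← hY]; exact Set.subset_iUnion Y i
      refine ⟨fun i => insert (r i) (Y i), ⟨fun i => Or.inl rfl, fun i v hv => ?_, fun i => ?_,
        fun i j hij => ?_, fun i j hij => ?_⟩⟩
      · exact hv.imp_right fun h => hYD i h
      · obtain ⟨u, hu, v, hv, h⟩ := (hYt i i).2 rfl
        rw [Set.mem_singleton_iff] at hv
        exact conn_insert (hYc i) ⟨u, hu, hv ▸ h⟩
      · rw [Set.disjoint_left]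
        rintro v (h | h) (h' | h')
        · exact hij (hr (h.symm.trans h'))
        · exact hD i (h ▸ hYD j h')
        · exact hD j (h' ▸ hYD i h)
        · exact Set.disjoint_left.1 (hYd i j hij) h h'
      · obtain ⟨u, hu, v, hv, h⟩ := hYa i j hij
        exact ⟨u, Or.inr hu, v, Or.inr hv, h⟩
    · -- hub
      exfalso
      obtain ⟨d', hd', hne⟩ : ∃ d' ∈ D, d' ≠ h := Set.exists_ne_of_one_lt_ncard (by omega) h
      obtain ⟨L, hdL, hLD, hL, hLcl⟩ := comp (G := G) (C := D \ {h}) (c := d') ⟨hd', hne⟩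
      have hLh : h ∉ L := fun h' => (hLD h').2 rfl
      have one : ∃ i0 : Fin 3, ∀ i, (∃ u ∈ L, G.Adj u (r i)) → i = i0 := by
        by_cases ht : ∃ i, ∃ u ∈ L, G.Adj u (r i)
        · obtain ⟨i0, u0, hu0, h0⟩ := ht
          refine ⟨i0, fun i hi => ?_⟩
          obtain ⟨u, hu, hi⟩ := hi
          exact hub L (fun v hv => (hLD hv).1) hLh hL i i0 ⟨u, hu, r i, rfl, hi⟩
            ⟨u0, hu0, r i0, rfl, h0⟩
        · exact ⟨0, fun i hi => absurd ⟨i, hi⟩ ht⟩
      obtain ⟨i0, hi0⟩ := one
      obtain ⟨j, hj⟩ := other1 i0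
      have hN : ∀ u ∈ L, ∀ v, G.Adj u v → v ∈ L ∨ v = h ∨ v = r i0 := by
        intro u hu v huv
        rcases hcl u (hLD hu).1 v huv with h1 | ⟨i, h1⟩
        · by_cases hvh : v = h
          · exact Or.inr (Or.inl hvh)
          · exact Or.inl (hLcl u hu v huv ⟨h1, hvh⟩)
        · have := hi0 i ⟨u, hu, h1 ▸ huv⟩
          rw [this] at h1
          exact Or.inr (Or.inr h1)
      rcases h3 h (r i0) L ⟨d', hdL⟩ hLh (fun h' => hD i0 (hLD h').1) hN (r j) with h1 | h1 | h1
      · exact hD j (hLD h1).1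
      · exact hD j (h1 ▸ hh)
      · exact hj (hr h1)
  · -- two components
    obtain ⟨d', hd', hd'K⟩ : ∃ d' ∈ D, d' ∉ K := by
      by_contra hno
      push Not at hno
      exact hKeq (subset_antisymm hKD hno)
    obtain ⟨L, hdL, hLD, hL, hLcl⟩ := comp (G := G) hd'
    have tL := touchAll h3 hr hD hcl hLD ⟨d', hdL⟩ hLcl
    have hdis : Disjoint K L := by
      rw [Set.disjoint_left]
      intro v hv hv'
      exact hd'K (conn_sub hL hLD hKcl hv' hv hdL)
    refine fatE hr hD hK hL hKD hLD hdis (a := 0) (b := 2) (c := 1) (by decide) (by decide)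
      (by decide) (tK 0) (tK 2) (tL 2) (tL 1) ?_
    obtain ⟨u, hu, h⟩ := tK 1
    exact ⟨u, Or.inr hu, r 1, Or.inl rfl, h⟩

/-- the pieces: connected minors of `G₀`, quasi-4-connected or with at most four vertices; if the
root is a triangle, it does not separate the piece -/
def PM {V₀ : Type} (G₀ : SimpleGraph V₀) (V : Type) (G : SimpleGraph V) (R : Set V) : Prop :=
  G.Connected ∧ IsMinor G G₀ ∧ (Nat.card V ≤ 4 ∨ Quasi4 G) ∧
    (R.ncard = 3 → (G.induce Rᶜ).Preconnected)

theorem pm_iso {V₀ : Type} (G₀ : SimpleGraph V₀) : IsoInv (PM G₀) := by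
  rintro V W G H e R ⟨h1, h2, h3, h4⟩
  refine ⟨(Iso.connected_iff e).1 h1, minor_trans (minor_iso e) h2,
    h3.imp (fun h => (Nat.card_congr e.toEquiv).symm.trans_le h) fun h => h.iso e, ?_⟩
  rw [Set.ncard_image_of_injective _ e.injective]
  intro hR
  have h5 := h4 hR
  rintro ⟨a, ha⟩ ⟨b, hb⟩
  have ha' : e.symm a ∈ Rᶜ := fun h => ha ⟨e.symm a, h, by simp⟩
  have hb' : e.symm b ∈ Rᶜ := fun h => hb ⟨e.symm b, h, by simp⟩
  have hmem : ∀ x : (Rᶜ : Set V), e x.1 ∈ (e '' R)ᶜ := by
    rintro x ⟨y, hy, hxy⟩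
    exact x.2 (e.injective hxy ▸ hy)
  let f : G.induce Rᶜ →g H.induce (e '' R)ᶜ :=
    { toFun := fun x => ⟨e x.1, hmem x⟩
      map_rel' := by
        intro x y hxy
        exact e.map_adj_iff.2 hxy }
  have h6 := (h5 ⟨_, ha'⟩ ⟨_, hb'⟩).map f
  have e1 : f ⟨e.symm a, ha'⟩ = ⟨a, ha⟩ := Subtype.ext (by show e (e.symm a) = a; simp)
  have e2 : f ⟨e.symm b, hb'⟩ = ⟨b, hb⟩ := Subtype.ext (by show e (e.symm b) = b; simp)
  rw [e1, e2] at h6
  exact h6

/-- the induction hypothesis -/
def Smaller4 {V₀ : Type} (G₀ : SimpleGraph V₀) (m : ℕ) : Prop :=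
  ∀ (W : Type) [Finite W] (K : SimpleGraph W) (T : Set W), Nat.card W < m → K.Connected →
    IsMinor K G₀ → (∀ u ∈ T, ∀ v ∈ T, u ≠ v → K.Adj u v) → T.ncard ≤ 3 → Rooted 3 (PM G₀) K T

theorem side4 {V₀ : Type} {G₀ : SimpleGraph V₀} {V : Type} [Finite V] {G G' : SimpleGraph V}
    (h0 : IsMinor G G₀) {X T : Set V}
    (hTX : T ⊆ X) (hX : ∃ v, v ∉ X) (hmin : IsMinor (G'.induce X) G)
    (hcon : (G'.induce X).Connected) (hT : ∀ u ∈ T, ∀ v ∈ T, u ≠ v → G'.Adj u v)
    (hT3 : T.ncard ≤ 3) (IH : Smaller4 G₀ (Nat.card V)) : RootedOn 3 (PM G₀) G' X T := by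
  refine RootedOn.of_induce (pm_iso G₀) hTX (IH X (G'.induce X) {x | (x : V) ∈ T} ?_ hcon
    (minor_trans hmin h0) ?_ ((ncard_sub X T).trans hT3))
  · obtain ⟨v, hv⟩ := hX
    exact Finite.card_subtype_lt (p := fun x => x ∈ X) hv
  · intro u hu v hv huv
    exact hT u.1 hu v.1 hv fun e => huv (Subtype.ext e)

theorem of_cut4 {V₀ : Type} {G₀ : SimpleGraph V₀} {V : Type} [Finite V] {G : SimpleGraph V}
    {R X Y S : Set V} (h : Cut G R X Y S) (hS : S.ncard ≤ 3) (h0 : IsMinor G G₀)
    (hR : ∀ u ∈ R, ∀ v ∈ R, u ≠ v → G.Adj u v)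
    (hR3 : R.ncard ≤ 3) (IH : Smaller4 G₀ (Nat.card V)) : Rooted 3 (PM G₀) G R := by
  have hSY : S ⊆ Y := by rw [← h.inter]; exact Set.inter_subset_right
  have hSX : S ⊆ X := by rw [← h.inter]; exact Set.inter_subset_left
  have h1 := side4 h0 h.root h.X_ne h.minX h.conX (fun u hu v hv huv => Or.inl (hR u hu v hv huv))
    hR3 IH
  have h2 := side4 h0 hSY h.Y_ne h.minY h.conY clq_adj hS IH
  have h3 := RootedOn.cat h.inter clq_adj hS (fun u hu hu' v hv hv' huv => ?_) h1 h2
  · rw [h.union] at h3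
    exact h3.mono fun u _ v _ huv => Or.inl huv
  · rcases huv with huv | ⟨_, hu'', _⟩
    · exact h.no u hu hu' v hv hv' huv
    · exact hu' (hSY hu'')

theorem of_sep4 {V₀ : Type} {G₀ : SimpleGraph V₀} {V : Type} [Finite V] {G : SimpleGraph V}
    {R : Set V} (hG : G.Connected)
    (hRne : R.Nonempty) (hsep : ¬ (G.induce Rᶜ).Preconnected)
    (h0 : IsMinor G G₀) (hR : ∀ u ∈ R, ∀ v ∈ R, u ≠ v → G.Adj u v)
    (hR3 : R.ncard ≤ 3) (IH : Smaller4 G₀ (Nat.card V)) : Rooted 3 (PM G₀) G R := by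
  classical
  unfold Preconnected at hsep
  push Not at hsep
  obtain ⟨u, v, huv⟩ := hsep
  obtain ⟨C, huC, hCR, hC, hcl⟩ := comp (G := G) (C := Rᶜ) u.2
  have hvC : v.1 ∉ C := by
    intro hv
    refine huv ?_
    exact (hC.preconnected ⟨u.1, huC⟩ ⟨v.1, hv⟩).map (induceHomOfLE G hCR).toHom
  set D : Set V := {w | w ∉ C ∧ w ∉ R} with hD
  obtain ⟨X, Y, h⟩ := cut_or (S := R) (C := C) (D := D) hG hR hRne
    (Set.disjoint_left.2 fun w hw hw' => hw'.1 hw)
    (Set.disjoint_left.2 fun w hw hw' => hCR hw hw')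
    (Set.disjoint_left.2 fun w hw hw' => hw.2 hw')
    (by
      ext w
      simp only [Set.mem_union, Set.mem_univ, iff_true]
      by_cases h1 : w ∈ C
      · exact Or.inl (Or.inl h1)
      · by_cases h2 : w ∈ R
        · exact Or.inr h2
        · exact Or.inl (Or.inr ⟨h1, h2⟩))
    ⟨u.1, huC⟩ ⟨v.1, hvC, v.2⟩
    (fun a ha b hb hab => hb.1 (hcl a ha b hab hb.2))
    (minor0 hR) (minor0 hR)
  exact of_cut4 h hR3 h0 hR hR3 IH

/-- **The recursion.** -/
theorem rooted4 {V₀ : Type} (G₀ : SimpleGraph V₀) : ∀ (N : ℕ) (V : Type) [Finite V]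
    (G : SimpleGraph V) (R : Set V), Nat.card V < N → G.Connected → IsMinor G G₀ →
    (∀ u ∈ R, ∀ v ∈ R, u ≠ v → G.Adj u v) → R.ncard ≤ 3 → Rooted 3 (PM G₀) G R := by
  classical
  intro N
  induction N with
  | zero => intro V _ G R h; omega
  | succ N ih =>
    intro V _ G R hN hG h0 hR hR3
    have IH : Smaller4 G₀ (Nat.card V) := fun W _ K T hlt => ih W K T (by omega)
    by_cases hsep : R.ncard = 3 → (G.induce Rᶜ).Preconnected
    · by_cases h4 : Nat.card V ≤ 4
      · exact single' (pm_iso G₀) ⟨hG, h0, Or.inl h4, hsep⟩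
      by_cases h3 : Conn3 G
      · by_cases hq : Quasi4 G
        · exact single' (pm_iso G₀) ⟨hG, h0, Or.inr hq, hsep⟩
        · have hq' : ¬ ∀ (r : Fin 3 → V) (C D : Set V), Sep3 G r C D → C.ncard ≤ 1 ∨ D.ncard ≤ 1 :=
            fun h => hq ⟨h3, h⟩
          push Not at hq'
          obtain ⟨r, C, D, hs, hC, hD⟩ := hq'
          have hCne : C.Nonempty := by
            rw [← Set.ncard_pos]; omega
          have hDne : D.Nonempty := by
            rw [← Set.ncard_pos]; omega
          have clC : ∀ u ∈ C, ∀ v, G.Adj u v → v ∈ C ∨ ∃ i, v = r i := by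
            intro u hu v huv
            rcases hs.cover v with h | h | h
            · exact Or.inl h
            · exact absurd huv (hs.no u hu v h)
            · exact Or.inr h
          have clD : ∀ u ∈ D, ∀ v, G.Adj u v → v ∈ D ∨ ∃ i, v = r i := by
            intro u hu v huv
            rcases hs.cover v with h | h | h
            · exact absurd huv.symm (hs.no v h u hu)
            · exact Or.inl h
            · exact Or.inr h
          have hr : Function.Injective r := by
            intro i j hij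
            by_contra hne
            obtain ⟨k, hk⟩ := third i j hne
            obtain ⟨d, hd⟩ := hDne
            have hN : ∀ u ∈ C, ∀ v, G.Adj u v → v ∈ C ∨ v = r i ∨ v = r k := by
              intro u hu v huv
              rcases clC u hu v huv with h | ⟨l, h⟩
              · exact Or.inl h
              · rcases hk l with rfl | rfl | rfl
                · exact Or.inr (Or.inl h)
                · exact Or.inr (Or.inl (h.trans hij.symm))
                · exact Or.inr (Or.inr h)
            rcases h3 (r i) (r k) C hCne (hs.offC i) (hs.offC k) hN d with h | h | h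
            · exact Set.disjoint_left.1 hs.disj h hd
            · exact hs.offD i (h ▸ hd)
            · exact hs.offD k (h ▸ hd)
          obtain ⟨E, hE⟩ := tripod h3 hr hs.offD clD (by omega)
          obtain ⟨F, hF⟩ := tripod h3 hr hs.offC clC (by omega)
          have hS3 : (Set.range r).ncard ≤ 3 := by
            rw [← Set.image_univ, Set.ncard_image_of_injective _ hr, Set.ncard_univ]
            simp
          have dCS : Disjoint C (Set.range r) := by
            rw [Set.disjoint_left]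
            rintro _ hv ⟨i, rfl⟩
            exact hs.offC i hv
          have dDS : Disjoint D (Set.range r) := by
            rw [Set.disjoint_left]
            rintro _ hv ⟨i, rfl⟩
            exact hs.offD i hv
          have dDX : Disjoint D (C ∪ Set.range r) := by
            rw [Set.disjoint_left]
            rintro v hv (h | h)
            · exact Set.disjoint_left.1 hs.disj h hv
            · exact Set.disjoint_left.1 dDS hv h
          have dCX : Disjoint C (D ∪ Set.range r) := by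
            rw [Set.disjoint_left]
            rintro v hv (h | h)
            · exact Set.disjoint_left.1 hs.disj hv h
            · exact Set.disjoint_left.1 dCS hv h
          have hU : C ∪ D ∪ Set.range r = Set.univ := by
            ext v
            simp only [Set.mem_univ, iff_true]
            rcases hs.cover v with h | h | ⟨i, h⟩
            · exact Or.inl (Or.inl h)
            · exact Or.inl (Or.inr h)
            · exact Or.inr ⟨i, h.symm⟩
          obtain ⟨X, Y, h⟩ := cut_or (S := Set.range r) hG hR ⟨r 0, 0, rfl⟩ hs.disj dCS dDS hU hCne hDne hs.no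
            (minorE hr hE dDX) (minorE hr hF dCX)
          exact of_cut4 h hS3 h0 hR hR3 IH
      · obtain ⟨X, Y, S, hS, h⟩ := low hG h3 hR
        exact of_cut4 h (by omega) h0 hR hR3 IH
    · push Not at hsep
      have hne : R.Nonempty := by
        rw [← Set.ncard_pos]
        omega
      exact of_sep4 hG hne hsep.2 h0 hR hR3 IH

theorem minor_refl {V : Type} (G : SimpleGraph V) : IsMinor G G := minor_iso (Iso.refl)

/-- **Quasi-4-connected decomposition.** -/
theorem q4 (V : Type) [Finite V] (G : SimpleGraph V) (hG : G.Connected) :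
    ∃ H : SimpleGraph V, G ≤ H ∧ CliqueSum 3 (PM G) H := by
  refine Rooted.cliqueSum (rooted4 G _ V G ∅ (Nat.lt_succ_self _) hG (minor_refl G) (by simp)
    (by simp)) ?_
  rintro W K T ⟨h1, h2, h3, h4⟩
  exact ⟨h1, h2, h3, fun h => by simp at h⟩

/-- the same with a property of the quasi-4-connected minors -/
def PQ (Q : ∀ V : Type, SimpleGraph V → Prop) (V : Type) (G : SimpleGraph V) (R : Set V) : Prop :=
  G.Connected ∧ (Nat.card V ≤ 4 ∨ Q V G) ∧ (R.ncard = 3 → (G.induce Rᶜ).Preconnected)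

theorem q4Q (Q : ∀ V : Type, SimpleGraph V → Prop) (V : Type) [Finite V] (G : SimpleGraph V)
    (hG : G.Connected)
    (hQ : ∀ (W : Type) [Finite W] (K : SimpleGraph W), K.Connected → Quasi4 K → IsMinor K G →
      Q W K) : ∃ H : SimpleGraph V, G ≤ H ∧ CliqueSum 3 (PQ Q) H := by
  obtain ⟨H, hGH, n, B, hB, hP⟩ := q4 V G hG
  refine ⟨H, hGH, n, B, hB, fun t ht => ?_⟩
  obtain ⟨h1, h2, h3, h4⟩ := hP t ht
  exact ⟨h1, h3.imp_right fun h => hQ _ _ h1 h h2, h4⟩

end Vale.Agent.P235.K5.H281
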