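import Vale.Agent.P235.K5.H12.Int

set_option linter.all false

/-!
# Concatenation of rooted clique sums (helper281)
-/

namespace Vale.Agent.P235.K5.H281

open SimpleGraph Vale.Agent.P235.K5

/-- the class of pieces is closed under isomorphism -/
def IsoInv (P : ∀ V : Type, SimpleGraph V → Set V → Prop) : Prop :=
  ∀ (V W : Type) (G : SimpleGraph V) (H : SimpleGraph W) (e : G ≃g H) (R : Set V),
    P V G R → P W H (e '' R)

/-- `G[W]` is a spanning subgraph of a clique sum of pieces of the class `P` (over cliques with at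
most `k` vertices) whose first piece contains `R` and is in the class with the root `R`. -/
structure On (k : ℕ) (P : ∀ V : Type, SimpleGraph V → Set V → Prop) {V : Type}
    (G : SimpleGraph V) (W R : Set V) (H : SimpleGraph V) (n : ℕ) (B : ℕ → Set V) : Prop where
  le : ∀ u ∈ W, ∀ v ∈ W, G.Adj u v → H.Adj u v
  pos : 0 < n
  sub : ∀ t < n, B t ⊆ W
  cover : ∀ v ∈ W, ∃ t, t < n ∧ v ∈ B t
  card : ∀ t < n, (Adh B t).ncard ≤ k
  clique : ∀ t < n, ∀ u ∈ Adh B t, ∀ v ∈ Adh B t, u ≠ v → H.Adj u v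
  sep : ∀ t < n, ∀ u v, u ∈ B t → u ∉ Bef B t → v ∈ Bef B t → v ∉ B t → ¬ H.Adj u v
  root : R ⊆ B 0
  piece0 : P (B 0) (H.induce (B 0)) {x | (x : V) ∈ R}
  piece : ∀ t, 0 < t → t < n → P (B t) (H.induce (B t)) {x | (x : V) ∈ Adh B t}

/-- see `On` -/
def RootedOn (k : ℕ) (P : ∀ V : Type, SimpleGraph V → Set V → Prop) {V : Type}
    (G : SimpleGraph V) (W R : Set V) : Prop :=
  ∃ (H : SimpleGraph V) (n : ℕ) (B : ℕ → Set V), On k P G W R H n B

/-- the same on the whole vertex set -/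
def Rooted (k : ℕ) (P : ∀ V : Type, SimpleGraph V → Set V → Prop) {V : Type}
    (G : SimpleGraph V) (R : Set V) : Prop := RootedOn k P G Set.univ R

/-- the union of two graphs, on `X` and on `Y` -/
def uni {V : Type} (X Y : Set V) (H1 H2 : SimpleGraph V) : SimpleGraph V where
  Adj u v := (u ∈ X ∧ v ∈ X ∧ H1.Adj u v) ∨ (u ∈ Y ∧ v ∈ Y ∧ H2.Adj u v)
  symm := ⟨by
    rintro u v (⟨h1, h2, h3⟩ | ⟨h1, h2, h3⟩)
    · exact Or.inl ⟨h2, h1, h3.symm⟩
    · exact Or.inr ⟨h2, h1, h3.symm⟩⟩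
  loopless := ⟨by
    rintro u (⟨h1, h2, h3⟩ | ⟨h1, h2, h3⟩)
    · exact H1.irrefl h3
    · exact H2.irrefl h3⟩

variable {k : ℕ} {P : ∀ V : Type, SimpleGraph V → Set V → Prop} {V : Type}

/-- **Concatenation.** -/
theorem RootedOn.cat {G : SimpleGraph V} {X Y R S : Set V} (hS : X ∩ Y = S)
    (hSc : ∀ u ∈ S, ∀ v ∈ S, u ≠ v → G.Adj u v) (hSk : S.ncard ≤ k)
    (hno : ∀ u ∈ X, u ∉ Y → ∀ v ∈ Y, v ∉ X → ¬ G.Adj u v)
    (h1 : RootedOn k P G X R) (h2 : RootedOn k P G Y S) : RootedOn k P G (X ∪ Y) R := by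
  classical
  obtain ⟨H1, n1, B1, h1⟩ := h1
  obtain ⟨H2, n2, B2, h2⟩ := h2
  have hSX : S ⊆ X := by rw [← hS]; exact Set.inter_subset_left
  have hSY : S ⊆ Y := by rw [← hS]; exact Set.inter_subset_right
  have hXY : ∀ u, u ∈ X → u ∈ Y → u ∈ S := fun u a b => by rw [← hS]; exact ⟨a, b⟩
  set H := uni X Y H1 H2 with hH
  set B : ℕ → Set V := fun t => if t < n1 then B1 t else B2 (t - n1) with hB
  have hB1 : ∀ t, t < n1 → B t = B1 t := fun t ht => by simp [hB, ht]
  have hB2 : ∀ s, B (n1 + s) = B2 s := fun s => by simp [hB]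
  have hHX : ∀ u ∈ X, ∀ v ∈ X, (H.Adj u v ↔ H1.Adj u v) := by
    intro u hu v hv
    constructor
    · rintro (⟨_, _, h⟩ | ⟨hu', hv', h⟩)
      · exact h
      · exact h1.le u hu v hv (hSc u (hXY u hu hu') v (hXY v hv hv') h.ne)
    · intro h
      exact Or.inl ⟨hu, hv, h⟩
  have hHY : ∀ u ∈ Y, ∀ v ∈ Y, (H.Adj u v ↔ H2.Adj u v) := by
    intro u hu v hv
    constructor
    · rintro (⟨hu', hv', h⟩ | ⟨_, _, h⟩)
      · exact h2.le u hu v hv (hSc u (hXY u hu' hu) v (hXY v hv' hv) h.ne)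
      · exact h
    · intro h
      exact Or.inr ⟨hu, hv, h⟩
  have bef1 : ∀ t, t ≤ n1 → Bef B t = Bef B1 t := by
    intro t ht
    ext v
    constructor
    · rintro ⟨s, hs, hv⟩
      exact ⟨s, hs, by rwa [hB1 s (by omega)] at hv⟩
    · rintro ⟨s, hs, hv⟩
      exact ⟨s, hs, by rwa [hB1 s (by omega)]⟩
  have bef2 : ∀ s, Bef B (n1 + s) = X ∪ Bef B2 s := by
    intro s
    ext v
    constructor
    · rintro ⟨r, hr, hv⟩
      by_cases h : r < n1
      · left
        rw [hB1 r h] at hv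
        exact h1.sub r h hv
      · right
        obtain ⟨q, rfl⟩ := Nat.exists_eq_add_of_le (not_lt.1 h)
        rw [hB2] at hv
        exact ⟨q, by omega, hv⟩
    · rintro (hv | ⟨q, hq, hv⟩)
      · obtain ⟨t, ht, hvt⟩ := h1.cover v hv
        exact ⟨t, by omega, by rwa [hB1 t ht]⟩
      · exact ⟨n1 + q, by omega, by rwa [hB2]⟩
  have adh1 : ∀ t, t < n1 → Adh B t = Adh B1 t := by
    intro t ht
    unfold Adh
    rw [hB1 t ht, bef1 t ht.le]
  have bef0 : Bef B2 0 = ∅ := by
    ext v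
    constructor
    · rintro ⟨s, hs, _⟩; omega
    · intro h; exact h.elim
  have adh0 : Adh B (n1 + 0) = S := by
    unfold Adh
    rw [hB2 0, bef2 0, bef0]
    ext v
    constructor
    · rintro ⟨a, b | b⟩
      · exact hXY v b (h2.sub 0 h2.pos a)
      · exact b.elim
    · intro hv
      exact ⟨h2.root hv, Or.inl (hSX hv)⟩
  have adh2 : ∀ s, 0 < s → s < n2 → Adh B (n1 + s) = Adh B2 s := by
    intro s hs hs2
    unfold Adh
    rw [hB2 s, bef2 s]
    ext v
    constructor
    · rintro ⟨a, b | b⟩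
      · exact ⟨a, 0, hs, h2.root (hXY v b (h2.sub s hs2 a))⟩
      · exact ⟨a, b⟩
    · rintro ⟨a, b⟩
      exact ⟨a, Or.inr b⟩
  have split : ∀ t, t < n1 + n2 → t < n1 ∨ t = n1 + 0 ∨ ∃ s, 0 < s ∧ s < n2 ∧ t = n1 + s := by
    intro t ht
    by_cases h : t < n1
    · exact Or.inl h
    · right
      by_cases h' : t = n1
      · exact Or.inl h'
      · right
        exact ⟨t - n1, by omega, by omega, by omega⟩
  have indX : ∀ T : Set V, T ⊆ X → H.induce T = H1.induce T := by
    intro T hT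
    ext u v
    exact hHX u.1 (hT u.2) v.1 (hT v.2)
  have indY : ∀ T : Set V, T ⊆ Y → H.induce T = H2.induce T := by
    intro T hT
    ext u v
    exact hHY u.1 (hT u.2) v.1 (hT v.2)
  have adhX : ∀ t, t < n1 → Adh B1 t ⊆ X := fun t ht v hv => h1.sub t ht hv.1
  have adhY : ∀ t, t < n2 → Adh B2 t ⊆ Y := fun t ht v hv => h2.sub t ht hv.1
  refine ⟨H, n1 + n2, B, ?_, ?_, ?_, ?_, ?_, ?_, ?_, ?_, ?_, ?_⟩
  · -- le
    intro u hu v hv huv
    by_cases hu1 : u ∈ X
    · by_cases hv1 : v ∈ X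
      · exact Or.inl ⟨hu1, hv1, h1.le u hu1 v hv1 huv⟩
      · have hv2 : v ∈ Y := hv.resolve_left hv1
        by_cases hu2 : u ∈ Y
        · exact Or.inr ⟨hu2, hv2, h2.le u hu2 v hv2 huv⟩
        · exact absurd huv (hno u hu1 hu2 v hv2 hv1)
    · have hu2 : u ∈ Y := hu.resolve_left hu1
      by_cases hv2 : v ∈ Y
      · exact Or.inr ⟨hu2, hv2, h2.le u hu2 v hv2 huv⟩
      · exact absurd huv.symm (hno v (hv.resolve_right hv2) hv2 u hu2 hu1)
  · exact Nat.add_pos_left h1.pos n2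
  · -- sub
    intro t ht
    rcases split t ht with h | h | ⟨s, hs, hs2, h⟩
    · rw [hB1 t h]
      exact (h1.sub t h).trans Set.subset_union_left
    · rw [h, hB2]
      exact (h2.sub 0 h2.pos).trans Set.subset_union_right
    · rw [h, hB2]
      exact (h2.sub s hs2).trans Set.subset_union_right
  · -- cover
    rintro v (hv | hv)
    · obtain ⟨t, ht, hvt⟩ := h1.cover v hv
      exact ⟨t, by omega, by rwa [hB1 t ht]⟩
    · obtain ⟨t, ht, hvt⟩ := h2.cover v hv
      exact ⟨n1 + t, by omega, by rwa [hB2]⟩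
  · -- card
    intro t ht
    rcases split t ht with h | h | ⟨s, hs, hs2, h⟩
    · rw [adh1 t h]; exact h1.card t h
    · rw [h, adh0]; exact hSk
    · rw [h, adh2 s hs hs2]; exact h2.card s hs2
  · -- clique
    intro t ht
    rcases split t ht with h | h | ⟨s, hs, hs2, h⟩
    · rw [adh1 t h]
      intro u hu v hv huv
      exact (hHX u (adhX t h hu) v (adhX t h hv)).2 (h1.clique t h u hu v hv huv)
    · rw [h, adh0]
      intro u hu v hv huv
      exact Or.inl ⟨hSX hu, hSX hv, h1.le u (hSX hu) v (hSX hv) (hSc u hu v hv huv)⟩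
    · rw [h, adh2 s hs hs2]
      intro u hu v hv huv
      exact (hHY u (adhY s hs2 hu) v (adhY s hs2 hv)).2 (h2.clique s hs2 u hu v hv huv)
  · -- sep
    intro t ht
    by_cases h : t < n1
    · rw [hB1 t h, bef1 t h.le]
      intro u v hu hu' hv hv' huv
      obtain ⟨r, hr, hvr⟩ := hv
      have hvX : v ∈ X := h1.sub r (by omega) hvr
      exact h1.sep t h u v hu hu' ⟨r, hr, hvr⟩ hv'
        ((hHX u (h1.sub t h hu) v hvX).1 huv)
    · obtain ⟨s, rfl⟩ := Nat.exists_eq_add_of_le (not_lt.1 h)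
      have hs2 : s < n2 := by omega
      rw [hB2, bef2]
      intro u v hu hu' hv hv' huv
      have huX : u ∉ X := fun hx => hu' (Or.inl hx)
      have huB : u ∉ Bef B2 s := fun hx => hu' (Or.inr hx)
      have huY : u ∈ Y := h2.sub s hs2 hu
      obtain ⟨hx, _, _⟩ | ⟨_, hvY, hadj⟩ := huv
      · exact huX hx
      · refine h2.sep s hs2 u v hu huB ?_ hv' hadj
        rcases hv with hvX | hvB
        · have hvS : v ∈ S := hXY v hvX hvY
          rcases Nat.eq_zero_or_pos s with h0 | h0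
          · subst h0
            exact absurd (h2.root hvS) hv'
          · exact ⟨0, h0, h2.root hvS⟩
        · exact hvB
  · -- root
    rw [hB1 0 h1.pos]
    exact h1.root
  · -- piece0
    rw [hB1 0 h1.pos, indX _ (h1.sub 0 h1.pos)]
    exact h1.piece0
  · -- piece
    intro t h0 ht
    rcases split t ht with h | h | ⟨s, hs, hs2, h⟩
    · rw [adh1 t h, hB1 t h, indX _ (h1.sub t h)]
      exact h1.piece t h0 h
    · rw [h, adh0, hB2, indY _ (h2.sub 0 h2.pos)]
      exact h2.piece0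
    · rw [h, adh2 s hs hs2, hB2, indY _ (h2.sub s hs2)]
      exact h2.piece s hs hs2

theorem RootedOn.mono {G G' : SimpleGraph V} {W R : Set V} (h : RootedOn k P G' W R)
    (hG : ∀ u ∈ W, ∀ v ∈ W, G.Adj u v → G'.Adj u v) : RootedOn k P G W R := by
  obtain ⟨H, n, B, h⟩ := h
  exact ⟨H, n, B, { h with le := fun u hu v hv huv => h.le u hu v hv (hG u hu v hv huv) }⟩

/-- **Many pieces along one clique** `S`. -/
theorem RootedOn.multi {ι : Type} {G : SimpleGraph V} {R S : Set V}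
    (hSc : ∀ u ∈ S, ∀ v ∈ S, u ≠ v → G.Adj u v) (hSk : S.ncard ≤ k) (C : ι → Set V) (i0 : ι)
    (hdis : ∀ i j, i ≠ j → Disjoint (C i) (C j)) (hCS : ∀ i, Disjoint (C i) S)
    (hno : ∀ i j, i ≠ j → ∀ u ∈ C i, ∀ v ∈ C j, ¬ G.Adj u v)
    (hroot : RootedOn k P G (C i0 ∪ S) R) (I : Finset ι)
    (hrest : ∀ i ∈ I, i ≠ i0 → RootedOn k P G (C i ∪ S) S) :
    RootedOn k P G ((C i0 ∪ ⋃ i ∈ I, C i) ∪ S) R := by
  classical
  induction I using Finset.induction_on with
  | empty => simpa using hroot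
  | insert j J hj ih =>
    have ih' := ih fun i hi => hrest i (Finset.mem_insert_of_mem hi)
    by_cases hj0 : j = i0
    · have : (C i0 ∪ ⋃ i ∈ insert j J, C i) ∪ S = (C i0 ∪ ⋃ i ∈ J, C i) ∪ S := by
        rw [Finset.set_biUnion_insert, hj0, ← Set.union_assoc, Set.union_self]
      rw [this]
      exact ih'
    · have key := RootedOn.cat (G := G) (X := (C i0 ∪ ⋃ i ∈ J, C i) ∪ S) (Y := C j ∪ S) (R := R)
        (S := S) ?_ hSc hSk ?_ ih' (hrest j (Finset.mem_insert_self j J) hj0)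
      · convert key using 1
        rw [Finset.set_biUnion_insert]
        ext v
        simp only [Set.mem_union]
        tauto
      · ext v
        constructor
        · rintro ⟨(h | h) | h, h' | h'⟩
          · exact absurd h' (Set.disjoint_left.1 (hdis i0 j (Ne.symm hj0)) h)
          · exact h'
          · obtain ⟨i, hi, hv⟩ := Set.mem_iUnion₂.1 h
            have hij : i ≠ j := fun e => hj (e ▸ hi)
            exact absurd h' (Set.disjoint_left.1 (hdis i j hij) hv)
          · exact h'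
          · exact h
          · exact h
        · intro h
          exact ⟨Or.inr h, Or.inr h⟩
      · rintro u hu hu' v hv hv' huv
        have hvj : v ∈ C j := hv.resolve_right fun h => hv' (Or.inr h)
        rcases hu with (h | h) | h
        · exact hno i0 j (Ne.symm hj0) u h v hvj huv
        · obtain ⟨i, hi, hu1⟩ := Set.mem_iUnion₂.1 h
          have hij : i ≠ j := fun e => hj (e ▸ hi)
          exact hno i j hij u hu1 v hvj huv
        · exact hu' (Or.inr h)

/-- a single piece -/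
theorem RootedOn.single {G : SimpleGraph V} {W R : Set V} (hR : R ⊆ W)
    (h : P W (G.induce W) {x | (x : V) ∈ R}) : RootedOn k P G W R := by
  have hbef : ∀ t, t < 1 → Bef (fun _ : ℕ => W) t = ∅ := by
    intro t ht
    ext v
    constructor
    · rintro ⟨s, hs, _⟩; omega
    · intro h; exact h.elim
  refine ⟨G, 1, fun _ => W, fun u _ v _ h => h, Nat.one_pos, fun _ _ => subset_rfl,
    fun v hv => ⟨0, Nat.one_pos, hv⟩, fun t ht => ?_, fun t ht u hu => ?_,
    fun t ht u v hu hu' hv => ?_, hR, h, fun t h0 ht => by omega⟩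
  · have : Adh (fun _ : ℕ => W) t = ∅ := by
      unfold Adh
      rw [hbef t ht]
      ext v
      simp
    rw [this]
    simp
  · have := hu.2
    rw [hbef t ht] at this
    exact this.elim
  · rw [hbef t ht] at hv
    exact hv.elim

/-- **Transport** from the induced subgraph. -/
theorem RootedOn.of_induce (hP : IsoInv P) {G : SimpleGraph V} {W R : Set V} (hR : R ⊆ W)
    (h : Rooted k P (G.induce W) {x | (x : V) ∈ R}) : RootedOn k P G W R := by
  classical
  obtain ⟨H, n, B, h⟩ := h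
  set H' : SimpleGraph V := H.map (Function.Embedding.subtype _) with hH'
  have hadj : ∀ u v : W, H'.Adj u v ↔ H.Adj u v := by
    intro u v
    exact SimpleGraph.map_adj_apply (f := Function.Embedding.subtype _)
  set B' : ℕ → Set V := fun t => Subtype.val '' B t with hB'
  have bef : ∀ t, Bef B' t = Subtype.val '' Bef B t := by
    intro t
    ext v
    constructor
    · rintro ⟨s, hs, x, hx, rfl⟩
      exact ⟨x, ⟨s, hs, hx⟩, rfl⟩
    · rintro ⟨x, ⟨s, hs, hx⟩, rfl⟩
      exact ⟨s, hs, x, hx, rfl⟩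
  have adh : ∀ t, Adh B' t = Subtype.val '' Adh B t := by
    intro t
    unfold Adh
    rw [bef]
    ext v
    constructor
    · rintro ⟨⟨x, hx, rfl⟩, y, hy, hxy⟩
      have : y = x := Subtype.ext hxy
      subst this
      exact ⟨y, ⟨hx, hy⟩, rfl⟩
    · rintro ⟨x, ⟨hx, hx'⟩, rfl⟩
      exact ⟨⟨x, hx, rfl⟩, x, hx', rfl⟩
  have pc : ∀ (S R1 : Set W), P S (H.induce S) {x | (x : W) ∈ R1} →
      P (Subtype.val '' S : Set V) (H'.induce (Subtype.val '' S))
        {x | (x : V) ∈ Subtype.val '' R1} := by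
    intro S R1 h
    let e : H.induce S ≃g H'.induce (Subtype.val '' S) :=
      { toEquiv := Equiv.Set.image Subtype.val S Subtype.val_injective
        map_rel_iff' := by
          intro a b
          exact hadj a.1 b.1 }
    have h' := hP _ _ _ _ e _ h
    convert h' using 1
    ext ⟨x, hx⟩
    obtain ⟨y, hy, rfl⟩ := hx
    constructor
    · rintro ⟨z, hz, hzy⟩
      have : z = y := Subtype.ext hzy
      subst this
      exact ⟨⟨z, hy⟩, hz, rfl⟩
    · rintro ⟨⟨z, hz⟩, hz', hzy⟩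
      have h1 : z.1 = y.1 := congrArg (fun w : (Subtype.val '' S : Set V) => (w : V)) hzy
      exact ⟨z, hz', h1⟩
  refine ⟨H', n, B', ?_, h.pos, ?_, ?_, ?_, ?_, ?_, ?_, ?_, ?_⟩
  · intro u hu v hv huv
    exact (hadj ⟨u, hu⟩ ⟨v, hv⟩).2 (h.le ⟨u, hu⟩ trivial ⟨v, hv⟩ trivial huv)
  · rintro t ht _ ⟨x, hx, rfl⟩
    exact x.2
  · intro v hv
    obtain ⟨t, ht, h'⟩ := h.cover ⟨v, hv⟩ trivial
    exact ⟨t, ht, ⟨v, hv⟩, h', rfl⟩
  · intro t ht
    rw [adh, Set.ncard_image_of_injective _ Subtype.val_injective]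
    exact h.card t ht
  · intro t ht
    rw [adh]
    rintro _ ⟨u, hu, rfl⟩ _ ⟨v, hv, rfl⟩ huv
    exact (hadj u v).2 (h.clique t ht u hu v hv fun e => huv (congrArg _ e))
  · intro t ht u v hu hu' hv hv' huv
    rw [bef] at hu' hv
    obtain ⟨x, hx, rfl⟩ := hu
    obtain ⟨y, hy, rfl⟩ := hv
    exact h.sep t ht x y hx (fun h => hu' ⟨x, h, rfl⟩) hy (fun h => hv' ⟨y, h, rfl⟩)
      ((hadj x y).1 huv)
  · intro r hr
    exact ⟨⟨r, hR hr⟩, h.root hr, rfl⟩
  · have h' := pc (B 0) {x | (x : V) ∈ R} h.piece0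
    convert h' using 1
    ext ⟨x, hx⟩
    constructor
    · intro hr
      exact ⟨⟨x, hR hr⟩, hr, rfl⟩
    · rintro ⟨z, hz, hzx⟩
      have hzx' : (z : V) = x := hzx
      have : (x : V) ∈ R := by
        rw [← hzx']; exact hz
      exact this
  · intro t h0 ht
    have h' := pc (B t) (Adh B t) (h.piece t h0 ht)
    rw [adh]
    exact h'

/-- **The output**: a rooted decomposition of `G` gives a clique sum above `G`. -/
theorem Rooted.cliqueSum {G : SimpleGraph V} {R : Set V} (h : Rooted k P G R)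
    (hanti : ∀ (W : Type) (K : SimpleGraph W) (T : Set W), P W K T → P W K ∅) :
    ∃ H : SimpleGraph V, G ≤ H ∧ CliqueSum k P H := by
  obtain ⟨H, n, B, h⟩ := h
  refine ⟨H, fun u v huv => h.le u trivial v trivial huv, n, B,
    ⟨fun v => h.cover v trivial, h.card, h.clique, h.sep⟩, fun t ht => ?_⟩
  rcases Nat.eq_zero_or_pos t with h0 | h0
  · subst h0
    have : {x : B 0 | (x : V) ∈ Adh B 0} = ∅ := by
      ext x
      constructor
      · rintro ⟨_, s, hs, _⟩; omega
      · intro h; exact h.elim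
    rw [this]
    exact hanti _ _ _ h.piece0
  · exact h.piece t h0 ht

end Vale.Agent.P235.K5.H281
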