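import Vale.Agent.P235.K5.H281.Fin
import Vale.Agent.P235.K5.W.H516.ThmW

set_option linter.all false

/-!
# Graphs without a `K_5` minor are clique sums: no hypothesis left (helper281)
-/

namespace Vale.Agent.P235.K5.H281

open SimpleGraph Vale.Agent.P235.K5 Vale.Agent.P235.H134 Vale.Agent.P235.H56
open Vale.Agent.P235.H341W (capG)

theorem wIn : WIn := by
  intro V _ G h3 h33 h5
  rcases Vale.Agent.P235.K5.W.H516.theoremW h3 h33 h5 with ⟨S, D, hS, hc, hoff, hdis, hcl⟩ | ⟨h8, ht⟩
  · refine Or.inr ⟨S, D, hS, fun j => ?_, hoff, hdis, hcl⟩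
    obtain ⟨⟨x, hx⟩⟩ := (hc j).nonempty
    exact ⟨x, hx⟩
  · exact Or.inl ⟨h8, ht⟩

/-- connected graphs -/
theorem k5free' (V : Type) [Finite V] (G : SimpleGraph V) (hG : G.Connected)
    (h5 : ¬ IsMinor (⊤ : SimpleGraph (Fin 5)) G) :
    ∃ H : SimpleGraph V, G ≤ H ∧ CliqueSum 3 PW H :=
  k5free wIn V G hG h5

theorem pw_anti : ∀ (W : Type) (K : SimpleGraph W) (T : Set W), PW W K T → PW W K ∅ := by
  rintro W K T ⟨h1, h2⟩
  refine ⟨h1, h2.imp (fun h h' => h ?_) fun h => ⟨h.1, by simp⟩⟩
  obtain ⟨μ, a1, a2, a3⟩ := h'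
  have hle : capG K ∅ ≤ capG K T := by
    rintro (_ | a) (_ | b) hab
    · exact hab
    · exact (show b ∈ (∅ : Set W) from hab).elim
    · exact (show a ∈ (∅ : Set W) from hab).elim
    · exact hab
  refine ⟨μ, fun a => (a1 a).mono ?_, a2, fun a b hab => ?_⟩
  · intro u v huv
    exact hle huv
  · obtain ⟨p, hp, q, hq, hpq⟩ := a3 a b hab
    exact ⟨p, hp, q, hq, hle hpq⟩

/-- **All graphs without a `K_5` minor** (connected or not). -/
theorem k5class (V : Type) [Finite V] [Nonempty V] (G : SimpleGraph V)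
    (h5 : ¬ IsMinor (⊤ : SimpleGraph (Fin 5)) G) :
    ∃ H : SimpleGraph V, G ≤ H ∧ CliqueSum 3 PW H := by
  classical
  obtain ⟨v0⟩ := ‹Nonempty V›
  have hfin : Finite G.ConnectedComponent := Quot.finite _
  have : Fintype G.ConnectedComponent := Fintype.ofFinite _
  have hpiece : ∀ i : G.ConnectedComponent, RootedOn 3 PW G (i.supp ∪ ∅) ∅ := by
    intro i
    rw [Set.union_empty]
    refine RootedOn.of_induce isoInv (Set.empty_subset _) ?_
    refine rooted_of wIn _ _ (G.induce i.supp) _ (Nat.lt_succ_self _) i.connected_toSimpleGraph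
      (fun h => h5 (minor_trans h ?_)) (fun u hu => hu.elim) ?_
    · refine ⟨fun x => {x.1}, fun x => conn_single G x.1, fun x y hxy => ?_, fun x y hxy => ?_⟩
      · rw [Set.disjoint_left]
        intro v hv hv'
        exact hxy (Subtype.ext ((show v = x.1 from hv).symm.trans hv'))
      · exact ⟨x.1, rfl, y.1, rfl, hxy⟩
    · refine (ncard_sub _ _).trans ?_
      simp
  have h := RootedOn.multi (G := G) (S := ∅) (R := ∅) (k := 3) (P := PW)
    (C := fun i : G.ConnectedComponent => i.supp) (by simp) (by simp)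
    (G.connectedComponentMk v0) (fun i j hij => ?_) (fun i => Set.disjoint_empty _)
    (fun i j hij u hu v hv huv => ?_) (hpiece _) Finset.univ (fun i _ _ => hpiece i)
  · have hU : (((G.connectedComponentMk v0).supp ∪ ⋃ i ∈ (Finset.univ : Finset G.ConnectedComponent),
        i.supp) ∪ ∅ : Set V) = Set.univ := by
      ext v
      simp only [Set.mem_univ, iff_true]
      exact Or.inl (Or.inr (Set.mem_iUnion₂.2 ⟨G.connectedComponentMk v, Finset.mem_univ _, rfl⟩))
    rw [hU] at h
    exact Rooted.cliqueSum h pw_anti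
  · rw [Set.disjoint_left]
    intro v hv hv'
    exact hij (hv.symm.trans hv')
  · have h1 : G.connectedComponentMk u = G.connectedComponentMk v :=
      ConnectedComponent.eq.2 (Adj.reachable huv)
    exact hij ((show G.connectedComponentMk u = i from hu).symm.trans (h1.trans hv))

end Vale.Agent.P235.K5.H281
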