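import Vale.Agent.P235.K5.H281.Low
import Vale.Agent.P235.H218.K5.Face

set_option linter.all false

/-!
# Graphs without a `K_5` minor are clique sums (helper281): the recursion

Input: `WIn` (one step of Wagner's theorem).
-/

namespace Vale.Agent.P235.K5.H281

open SimpleGraph Vale.Agent.P235.K5 Vale.Agent.P235.H134 Vale.Agent.P235.H56
open Vale.Agent.P235.H341W (capG)

/-- `K_5` -/
abbrev KK5 : SimpleGraph (Fin 5) := ⊤

/-- the pieces -/
def PW (V : Type) (G : SimpleGraph V) (R : Set V) : Prop :=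
  G.Connected ∧ (¬ IsMinor K33 (capG G R) ∨ (Nat.card V = 8 ∧ R.ncard ≤ 2))

/-- one step of Wagner's theorem -/
def WIn : Prop :=
  ∀ (V : Type) [Finite V] (G : SimpleGraph V), Conn3 G → IsMinor K33 G → ¬ IsMinor KK5 G →
    (Nat.card V = 8 ∧ ∀ a b c, G.Adj a b → G.Adj b c → ¬ G.Adj a c) ∨
    ∃ (S : Finset V) (D : Fin 3 → Set V), S.card = 3 ∧ (∀ j, (D j).Nonempty) ∧
      (∀ j, Disjoint (D j) (S : Set V)) ∧ (∀ j j', j ≠ j' → Disjoint (D j) (D j')) ∧
      ∀ j, ∀ u ∈ D j, ∀ v, G.Adj u v → v ∈ D j ∨ v ∈ S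

/-- an isomorphism of the capped graphs, as a minor -/
theorem cap_iso {V W : Type} {G : SimpleGraph V} {H : SimpleGraph W} (e : G ≃g H) (R : Set V) :
    IsMinor (capG H (e '' R)) (capG G R) := by
  refine ⟨fun o => {Option.map e.symm o}, fun o => conn_single _ _, fun a b hab => ?_,
    fun a b hab => ?_⟩
  · rw [Set.disjoint_singleton]
    intro h
    exact hab (Option.map_injective e.symm.injective h)
  · refine ⟨_, rfl, _, rfl, ?_⟩
    rcases a with _ | a <;> rcases b with _ | b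
    · exact hab
    · obtain ⟨r, hr, hrb⟩ := (show b ∈ e '' R from hab)
      show e.symm b ∈ R
      rw [← hrb]
      simpa using hr
    · obtain ⟨r, hr, hra⟩ := (show a ∈ e '' R from hab)
      show e.symm a ∈ R
      rw [← hra]
      simpa using hr
    · show G.Adj (e.symm a) (e.symm b)
      exact e.symm.map_adj_iff.2 hab

theorem isoInv : IsoInv PW := by
  rintro V W G H e R ⟨h1, h2⟩
  refine ⟨(Iso.connected_iff e).1 h1, h2.imp (fun h h' => h (minor_trans h' (cap_iso e R)))
    fun h => ⟨(Nat.card_congr e.toEquiv).symm.trans h.1, ?_⟩⟩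
  rw [Set.ncard_image_of_injective _ e.injective]
  exact h.2

theorem single' {P : ∀ V : Type, SimpleGraph V → Set V → Prop} {k : ℕ} (hP : IsoInv P) {V : Type}
    {G : SimpleGraph V} {R : Set V} (h : P V G R) : Rooted k P G R := by
  refine RootedOn.single (Set.subset_univ R) ?_
  have h' := hP _ _ _ _ (SimpleGraph.induceUnivIso G).symm R h
  convert h' using 1
  ext x
  constructor
  · intro hx
    exact ⟨x.1, hx, Subtype.ext rfl⟩
  · rintro ⟨y, hy, hyx⟩
    have h1 : y = x.1 := congrArg Subtype.val hyx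
    show x.1 ∈ R
    rw [← h1]
    exact hy

theorem ncard_sub {V : Type} [Finite V] (X R : Set V) :
    ({x : X | (x : V) ∈ R}).ncard ≤ R.ncard := by
  rw [← Set.ncard_image_of_injective _ Subtype.val_injective]
  refine Set.ncard_le_ncard ?_ (Set.toFinite _)
  rintro _ ⟨x, hx, rfl⟩
  exact hx

/-- the induction hypothesis -/
def Smaller (m : ℕ) : Prop :=
  ∀ (W : Type) [Finite W] (K : SimpleGraph W) (T : Set W), Nat.card W < m → K.Connected →
    ¬ IsMinor KK5 K → (∀ u ∈ T, ∀ v ∈ T, u ≠ v → K.Adj u v) → T.ncard ≤ 3 → Rooted 3 PW K T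

theorem side {V : Type} [Finite V] {G G' : SimpleGraph V} (h5 : ¬ IsMinor KK5 G) {X T : Set V}
    (hTX : T ⊆ X) (hX : ∃ v, v ∉ X) (hmin : IsMinor (G'.induce X) G)
    (hcon : (G'.induce X).Connected) (hT : ∀ u ∈ T, ∀ v ∈ T, u ≠ v → G'.Adj u v)
    (hT3 : T.ncard ≤ 3) (IH : Smaller (Nat.card V)) : RootedOn 3 PW G' X T := by
  refine RootedOn.of_induce isoInv hTX (IH X (G'.induce X) {x | (x : V) ∈ T} ?_ hcon
    (fun h => h5 (minor_trans h hmin)) ?_ ((ncard_sub X T).trans hT3))
  · obtain ⟨v, hv⟩ := hX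
    exact Finite.card_subtype_lt (p := fun x => x ∈ X) hv
  · intro u hu v hv huv
    exact hT u.1 hu v.1 hv fun e => huv (Subtype.ext e)

theorem clq_adj {V : Type} {G : SimpleGraph V} {S : Set V} :
    ∀ u ∈ S, ∀ v ∈ S, u ≠ v → (G ⊔ clq S).Adj u v := fun u hu v hv huv => Or.inr ⟨huv, hu, hv⟩

theorem of_cut {V : Type} [Finite V] {G : SimpleGraph V} {R X Y S : Set V} (h : Cut G R X Y S)
    (hS : S.ncard ≤ 3) (h5 : ¬ IsMinor KK5 G) (hR : ∀ u ∈ R, ∀ v ∈ R, u ≠ v → G.Adj u v)
    (hR3 : R.ncard ≤ 3) (IH : Smaller (Nat.card V)) : Rooted 3 PW G R := by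
  have hSY : S ⊆ Y := by rw [← h.inter]; exact Set.inter_subset_right
  have hSX : S ⊆ X := by rw [← h.inter]; exact Set.inter_subset_left
  have h1 := side h5 h.root h.X_ne h.minX h.conX (fun u hu v hv huv => Or.inl (hR u hu v hv huv))
    hR3 IH
  have h2 := side h5 hSY h.Y_ne h.minY h.conY clq_adj hS IH
  have h3 := RootedOn.cat h.inter clq_adj hS (fun u hu hu' v hv hv' huv => ?_) h1 h2
  · rw [h.union] at h3
    exact h3.mono fun u _ v _ huv => Or.inl huv
  · rcases huv with huv | ⟨_, hu'', _⟩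
    · exact h.no u hu hu' v hv hv' huv
    · exact hu' (hSY hu'')

/-- a connected set behind `x`, `y`, `z` which touches all of them -/
theorem touch3 {V : Type} {G : SimpleGraph V} (h3 : Conn3 G) {C : Set V} {x y z : V}
    (hxy : x ≠ y) (hxz : x ≠ z) (hyz : y ≠ z) (hC : C.Nonempty)
    (hx : x ∉ C) (hy : y ∉ C) (hz : z ∉ C)
    (hN : ∀ u ∈ C, ∀ v, G.Adj u v → v ∈ C ∨ v = x ∨ v = y ∨ v = z) :
    ∃ K ⊆ C, (G.induce K).Connected ∧ (∃ u ∈ K, G.Adj u x) ∧ (∃ u ∈ K, G.Adj u y) ∧
      ∃ u ∈ K, G.Adj u z := by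
  obtain ⟨c, hc⟩ := hC
  obtain ⟨K, hcK, hKC, hK, hcl⟩ := comp (G := G) hc
  refine ⟨K, hKC, hK, ?_, ?_, ?_⟩
  · by_contra hno
    have hN' : ∀ u ∈ K, ∀ v, G.Adj u v → v ∈ K ∨ v = y ∨ v = z := by
      intro u hu v huv
      rcases hN u (hKC hu) v huv with h | h | h | h
      · exact Or.inl (hcl u hu v huv h)
      · exact absurd ⟨u, hu, h ▸ huv⟩ hno
      · exact Or.inr (Or.inl h)
      · exact Or.inr (Or.inr h)
    rcases h3 y z K ⟨c, hcK⟩ (fun h => hy (hKC h)) (fun h => hz (hKC h)) hN' x with h | h | h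
    · exact hx (hKC h)
    · exact hxy h
    · exact hxz h
  · by_contra hno
    have hN' : ∀ u ∈ K, ∀ v, G.Adj u v → v ∈ K ∨ v = x ∨ v = z := by
      intro u hu v huv
      rcases hN u (hKC hu) v huv with h | h | h | h
      · exact Or.inl (hcl u hu v huv h)
      · exact Or.inr (Or.inl h)
      · exact absurd ⟨u, hu, h ▸ huv⟩ hno
      · exact Or.inr (Or.inr h)
    rcases h3 x z K ⟨c, hcK⟩ (fun h => hx (hKC h)) (fun h => hz (hKC h)) hN' y with h | h | h
    · exact hy (hKC h)
    · exact hxy h.symm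
    · exact hyz h
  · by_contra hno
    have hN' : ∀ u ∈ K, ∀ v, G.Adj u v → v ∈ K ∨ v = x ∨ v = y := by
      intro u hu v huv
      rcases hN u (hKC hu) v huv with h | h | h | h
      · exact Or.inl (hcl u hu v huv h)
      · exact Or.inr (Or.inl h)
      · exact Or.inr (Or.inr h)
      · exact absurd ⟨u, hu, h ▸ huv⟩ hno
    rcases h3 x y K ⟨c, hcK⟩ (fun h => hx (hKC h)) (fun h => hy (hKC h)) hN' z with h | h | h
    · exact hz (hKC h)
    · exact hxz h.symm
    · exact hyz h.symm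

/-- three pieces behind three vertices -/
theorem of_tri {V : Type} [Finite V] {G : SimpleGraph V} {R : Set V} (hG : G.Connected)
    (h3 : Conn3 G) {x y z : V} (hxy : x ≠ y) (hxz : x ≠ z) (hyz : y ≠ z) (A : Fin 3 → Set V)
    (hne : ∀ j, (A j).Nonempty) (hoff : ∀ j, Disjoint (A j) {x, y, z})
    (hdis : ∀ i j, i ≠ j → Disjoint (A i) (A j))
    (hcl : ∀ j, ∀ u ∈ A j, ∀ v, G.Adj u v → v ∈ A j ∨ v ∈ ({x, y, z} : Set V))
    (hcov : ∀ v, (∃ j, v ∈ A j) ∨ v ∈ ({x, y, z} : Set V))
    (h5 : ¬ IsMinor KK5 G) (hR : ∀ u ∈ R, ∀ v ∈ R, u ≠ v → G.Adj u v)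
    (hR3 : R.ncard ≤ 3) (IH : Smaller (Nat.card V)) : Rooted 3 PW G R := by
  classical
  set S : Set V := {x, y, z} with hS
  have hxS : x ∈ S := Or.inl rfl
  have hyS : y ∈ S := Or.inr (Or.inl rfl)
  have hzS : z ∈ S := Or.inr (Or.inr rfl)
  have hS3 : S.ncard ≤ 3 := by
    rw [hS, Set.ncard_eq_three.2 ⟨x, y, z, hxy, hxz, hyz, rfl⟩]
  have off : ∀ j, ∀ v ∈ S, v ∉ A j := fun j v hv hv' => Set.disjoint_left.1 (hoff j) hv' hv
  have hK : ∀ j, ∃ K ⊆ A j, (G.induce K).Connected ∧ (∃ u ∈ K, G.Adj u x) ∧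
      (∃ u ∈ K, G.Adj u y) ∧ ∃ u ∈ K, G.Adj u z := fun j =>
    touch3 h3 hxy hxz hyz (hne j) (off j x hxS) (off j y hyS) (off j z hzS) (hcl j)
  choose K hKA hKc hKx hKy hKz using hK
  have three : ∀ i : Fin 3, ∃ j l : Fin 3, j ≠ i ∧ l ≠ i ∧ j ≠ l := by decide
  have hmin : ∀ i, IsMinor ((G ⊔ clq S).induce (A i ∪ S)) G := by
    intro i
    obtain ⟨j, l, hji, hli, hjl⟩ := three i
    refine minor3 (s := x) (t := y) (w := z) (K := K j) (L := K l) (Or.inr hxS) (Or.inr hyS) hxy
      (hKc j) (hKc l) ?_ ?_ ?_ (hKx j) (hKy j) (hKz j) (hKy l) (hKz l)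
    · rw [Set.disjoint_left]
      rintro v hv (h | h)
      · exact Set.disjoint_left.1 (hdis j i hji) (hKA j hv) h
      · exact off j v h (hKA j hv)
    · rw [Set.disjoint_left]
      rintro v hv (h | h)
      · exact Set.disjoint_left.1 (hdis l i hli) (hKA l hv) h
      · exact off l v h (hKA l hv)
    · rw [Set.disjoint_left]
      intro v hv hv'
      exact Set.disjoint_left.1 (hdis j l hjl) (hKA j hv) (hKA l hv')
  have hcon : ∀ i, ((G ⊔ clq S).induce (A i ∪ S)).Connected := fun i =>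
    conn_side hG (hcl i) ⟨x, hxS⟩
  have hprop : ∀ i, ∃ v, v ∉ A i ∪ S := by
    intro i
    obtain ⟨j, l, hji, hli, hjl⟩ := three i
    obtain ⟨v, hv⟩ := hne j
    refine ⟨v, ?_⟩
    rintro (h | h)
    · exact Set.disjoint_left.1 (hdis j i hji) hv h
    · exact off j v h hv
  -- the root
  obtain ⟨i0, hi0⟩ : ∃ i0, R ⊆ A i0 ∪ S := by
    by_cases hRS : R ⊆ S
    · exact ⟨0, hRS.trans Set.subset_union_right⟩
    · rw [Set.not_subset] at hRS
      obtain ⟨r, hr, hrS⟩ := hRS
      obtain ⟨i0, hi0⟩ := (hcov r).resolve_right hrS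
      refine ⟨i0, fun v hv => ?_⟩
      by_cases hrv : r = v
      · exact Or.inl (hrv ▸ hi0)
      · exact hcl i0 r hi0 v (hR r hr v hv hrv)
  have h1 := side (G' := G ⊔ clq S) h5 hi0 (hprop i0) (hmin i0) (hcon i0)
    (fun u hu v hv huv => Or.inl (hR u hu v hv huv)) hR3 IH
  have h2 := RootedOn.multi (G := G ⊔ clq S) (S := S) (R := R) clq_adj hS3 A i0 hdis hoff
    (fun i j hij u hu v hv huv => ?_) h1 Finset.univ
    (fun i _ _ => side (G' := G ⊔ clq S) h5 Set.subset_union_right (hprop i) (hmin i) (hcon i)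
      clq_adj hS3 IH)
  · have hU : (A i0 ∪ ⋃ i ∈ (Finset.univ : Finset (Fin 3)), A i) ∪ S = Set.univ := by
      ext v
      simp only [Set.mem_univ, iff_true]
      rcases hcov v with ⟨j, hj⟩ | h
      · exact Or.inl (Or.inr (Set.mem_iUnion₂.2 ⟨j, Finset.mem_univ j, hj⟩))
      · exact Or.inr h
    rw [hU] at h2
    exact h2.mono fun u _ v _ huv => Or.inl huv
  · rcases huv with huv | ⟨_, hu', _⟩
    · rcases hcl i u hu v huv with h | h
      · exact Set.disjoint_left.1 (hdis i j hij) h hv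
      · exact off j v h hv
    · exact off i u hu' hu

theorem minor0 {V : Type} {G : SimpleGraph V} {X S : Set V}
    (hS : ∀ u ∈ S, ∀ v ∈ S, u ≠ v → G.Adj u v) : IsMinor ((G ⊔ clq S).induce X) G := by
  refine ⟨fun x => {x.1}, fun x => conn_single G x.1, fun x y hxy => ?_, fun x y hxy => ?_⟩
  · rw [Set.disjoint_left]
    intro v hv hv'
    exact hxy (Subtype.ext ((show v = x.1 from hv).symm.trans hv'))
  · rcases hxy with h | ⟨hne, hx, hy⟩
    · exact ⟨x.1, rfl, y.1, rfl, h⟩
    · exact ⟨x.1, rfl, y.1, rfl, hS x.1 hx y.1 hy hne⟩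

/-- a separating clique -/
theorem of_sep {V : Type} [Finite V] {G : SimpleGraph V} {R : Set V} (hG : G.Connected)
    (hRne : R.Nonempty) (hsep : ¬ (G.induce Rᶜ).Preconnected)
    (h5 : ¬ IsMinor KK5 G) (hR : ∀ u ∈ R, ∀ v ∈ R, u ≠ v → G.Adj u v)
    (hR3 : R.ncard ≤ 3) (IH : Smaller (Nat.card V)) : Rooted 3 PW G R := by
  classical
  unfold Preconnected at hsep
  push Not at hsep
  obtain ⟨u, v, huv⟩ := hsep
  obtain ⟨C, huC, hCR, hC, hcl⟩ := comp (G := G) (C := Rᶜ) u.2
  have hvC : v.1 ∉ C := by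
    intro hv
    refine huv ?_
    exact (hC.preconnected ⟨u.1, huC⟩ ⟨v.1, hv⟩).map (induceHomOfLE G hCR).toHom
  set D : Set V := {w | w ∉ C ∧ w ∉ R} with hD
  obtain ⟨X, Y, h⟩ := cut_or (S := R) (C := C) (D := D) hG hR hRne
    (Set.disjoint_left.2 fun w hw hw' => hw'.1 hw)
    (Set.disjoint_left.2 fun w hw hw' => hCR hw hw')
    (Set.disjoint_left.2 fun w hw hw' => hw.2 hw')
    (by
      ext w
      simp only [Set.mem_union, Set.mem_univ, iff_true]
      by_cases h1 : w ∈ C
      · exact Or.inl (Or.inl h1)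
      · by_cases h2 : w ∈ R
        · exact Or.inr h2
        · exact Or.inl (Or.inr ⟨h1, h2⟩))
    ⟨u.1, huC⟩ ⟨v.1, hvC, v.2⟩
    (fun a ha b hb hab => hb.1 (hcl a ha b hab hb.2))
    (minor0 hR) (minor0 hR)
  exact of_cut h hR3 h5 hR hR3 IH

/-- **The recursion.** -/
theorem rooted_of (hW : WIn) : ∀ (N : ℕ) (V : Type) [Finite V] (G : SimpleGraph V) (R : Set V),
    Nat.card V < N → G.Connected → ¬ IsMinor KK5 G →
    (∀ u ∈ R, ∀ v ∈ R, u ≠ v → G.Adj u v) → R.ncard ≤ 3 → Rooted 3 PW G R := by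
  classical
  intro N
  induction N with
  | zero => intro V _ G R h; omega
  | succ N ih =>
    intro V _ G R hN hG h5 hR hR3
    have IH : Smaller (Nat.card V) := fun W _ K T hlt => ih W K T (by omega)
    by_cases h3 : Conn3 G
    · by_cases h33 : IsMinor K33 G
      · rcases hW V G h3 h33 h5 with ⟨h8, htri⟩ | ⟨S, D, hS, hne, hoff, hdis, hcl⟩
        · refine single' isoInv ⟨hG, Or.inr ⟨h8, ?_⟩⟩
          by_contra h
          obtain ⟨a, b, c, hab, hac, hbc, hRe⟩ := Set.ncard_eq_three.1 (show R.ncard = 3 by omega)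
          have ha : a ∈ R := by rw [hRe]; exact Or.inl rfl
          have hb : b ∈ R := by rw [hRe]; exact Or.inr (Or.inl rfl)
          have hc : c ∈ R := by rw [hRe]; exact Or.inr (Or.inr rfl)
          exact htri a b c (hR a ha b hb hab) (hR b hb c hc hbc) (hR a ha c hc hac)
        · obtain ⟨x, y, z, hxy, hxz, hyz, hSe⟩ := Finset.card_eq_three.1 hS
          have hSs : (S : Set V) = {x, y, z} := by rw [hSe]; simp
          have hmemS : ∀ v, v ∈ S ↔ v ∈ ({x, y, z} : Set V) := fun v => by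
            rw [← hSs]; exact Iff.rfl
          set E : Set V := {v | (∀ j, v ∉ D j) ∧ v ∉ ({x, y, z} : Set V)} with hE
          have hE1 : ∀ u ∈ E, ∀ v, G.Adj u v → v ∈ E ∨ v ∈ ({x, y, z} : Set V) := by
            intro u hu v huv
            by_cases hv : v ∈ ({x, y, z} : Set V)
            · exact Or.inr hv
            · refine Or.inl ⟨fun j hj => ?_, hv⟩
              rcases hcl j v hj u huv.symm with h | h
              · exact hu.1 j h
              · exact hu.2 ((hmemS u).1 h)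
          set A : Fin 3 → Set V := fun j => if j = 0 then D 0 ∪ E else D j with hA
          have A0 : A 0 = D 0 ∪ E := by simp [hA]
          have Aj : ∀ j, j ≠ 0 → A j = D j := fun j hj => by simp [hA, hj]
          have hDA : ∀ j, D j ⊆ A j := by
            intro j
            by_cases h : j = 0
            · subst h; rw [A0]; exact Set.subset_union_left
            · rw [Aj j h]
          have hAD : ∀ j v, v ∈ A j → v ∈ D j ∨ (j = 0 ∧ v ∈ E) := by
            intro j v hv
            by_cases h : j = 0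
            · subst h
              rw [A0] at hv
              exact hv.imp_right fun h => ⟨rfl, h⟩
            · rw [Aj j h] at hv
              exact Or.inl hv
          refine of_tri hG h3 hxy hxz hyz A (fun j => (hne j).mono (hDA j)) ?_ ?_ ?_ ?_ h5 hR hR3 IH
          · intro j
            rw [Set.disjoint_left]
            intro v hv hv'
            rcases hAD j v hv with h | ⟨_, h⟩
            · exact Set.disjoint_left.1 (hoff j) h ((hmemS v).2 hv')
            · exact h.2 hv'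
          · intro i j hij
            rw [Set.disjoint_left]
            intro v hv hv'
            rcases hAD i v hv with h | ⟨hi, h⟩ <;> rcases hAD j v hv' with h' | ⟨hj, h'⟩
            · exact Set.disjoint_left.1 (hdis i j hij) h h'
            · exact h'.1 i h
            · exact h.1 j h'
            · exact hij (hi.trans hj.symm)
          · intro j u hu v huv
            rcases hAD j u hu with h | ⟨hj, h⟩
            · rcases hcl j u h v huv with h' | h'
              · exact Or.inl (hDA j h')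
              · exact Or.inr ((hmemS v).1 h')
            · subst hj
              rcases hE1 u h v huv with h' | h'
              · left; rw [A0]; exact Or.inr h'
              · exact Or.inr h'
          · intro v
            by_cases hv : v ∈ ({x, y, z} : Set V)
            · exact Or.inr hv
            · left
              by_cases h : ∃ j, v ∈ D j
              · obtain ⟨j, hj⟩ := h
                exact ⟨j, hDA j hj⟩
              · refine ⟨0, ?_⟩
                rw [A0]
                exact Or.inr ⟨fun j hj => h ⟨j, hj⟩, hv⟩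
      · by_cases hsep : R.ncard = 3 → (G.induce Rᶜ).Preconnected
        · exact single' isoInv ⟨hG, Or.inl
            (Vale.Agent.P235.H218K5.face' hR hR3 hsep (fun _ => h5) h33)⟩
        · push Not at hsep
          have hne : R.Nonempty := by
            rw [← Set.ncard_pos]
            omega
          exact of_sep hG hne hsep.2 h5 hR hR3 IH
    · obtain ⟨X, Y, S, hS, h⟩ := low hG h3 hR
      exact of_cut h (by omega) h5 hR hR3 IH

/-- **Connected graphs without a `K_5` minor are spanning subgraphs of clique sums.** -/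
theorem k5free (hW : WIn) (V : Type) [Finite V] (G : SimpleGraph V) (hG : G.Connected)
    (h5 : ¬ IsMinor KK5 G) : ∃ H : SimpleGraph V, G ≤ H ∧ CliqueSum 3 PW H := by
  refine Rooted.cliqueSum (rooted_of hW _ V G ∅ (Nat.lt_succ_self _) hG h5 (by simp) (by simp)) ?_
  rintro W K T ⟨h1, h2⟩
  refine ⟨h1, h2.imp (fun h h' => h ?_) fun h => ⟨h.1, by simp⟩⟩
  obtain ⟨μ, a1, a2, a3⟩ := h'
  have hle : capG K ∅ ≤ capG K T := by
    rintro (_ | a) (_ | b) hab
    · exact hab
    · exact (show b ∈ (∅ : Set W) from hab).elim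
    · exact (show a ∈ (∅ : Set W) from hab).elim
    · exact hab
  refine ⟨μ, fun a => (a1 a).mono ?_, a2, fun a b hab => ?_⟩
  · intro u v huv
    exact hle huv
  · obtain ⟨p, hp, q, hq, hpq⟩ := a3 a b hab
    exact ⟨p, hp, q, hq, hle hpq⟩

end Vale.Agent.P235.K5.H281
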