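import Vale.Agent.P235.K5.H281.Cat

set_option linter.all false

/-!
# Flattening: clique sums of clique sums (helper281)
-/

namespace Vale.Agent.P235.K5.H281

open SimpleGraph Vale.Agent.P235.K5

variable {k : ℕ} {P : ∀ V : Type, SimpleGraph V → Set V → Prop} {V : Type}

/-- **Composition.** If every piece of a clique sum is (a spanning subgraph of) a clique sum of
pieces of the class `P` rooted at its adhesion, then so is the whole graph. -/
theorem flatten (hP : IsoInv P) {H : SimpleGraph V} {n : ℕ} {B : ℕ → Set V} (h : Glued k H n B)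
    (hn : 0 < n)
    (hpiece : ∀ t < n, Rooted k P (H.induce (B t)) {x | (x : V) ∈ Adh B t}) :
    Rooted k P H ∅ := by
  have key : ∀ m, 0 < m → m ≤ n → RootedOn k P H (Bef B m) ∅ := by
    intro m
    induction m with
    | zero => intro h0; omega
    | succ m ih =>
      intro _ hmn
      have hm := RootedOn.of_induce hP (fun v (hv : v ∈ Adh B m) => hv.1) (hpiece m (by omega))
      have hbef : Bef B (m + 1) = Bef B m ∪ B m := by
        ext v
        constructor
        · rintro ⟨s, hs, hv⟩
          by_cases h1 : s = m
          · exact Or.inr (h1 ▸ hv)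
          · exact Or.inl ⟨s, by omega, hv⟩
        · rintro (⟨s, hs, hv⟩ | hv)
          · exact ⟨s, by omega, hv⟩
          · exact ⟨m, by omega, hv⟩
      rcases Nat.eq_zero_or_pos m with h0 | h0
      · subst h0
        have h1 : Bef B 0 = ∅ := by
          ext v
          constructor
          · rintro ⟨s, hs, _⟩; omega
          · intro h; exact h.elim
        have h2 : Adh B 0 = ∅ := by
          ext v
          constructor
          · rintro ⟨_, s, hs, _⟩; omega
          · intro h; exact h.elim
        rw [hbef, h1, Set.empty_union]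
        rw [h2] at hm
        exact hm
      · rw [hbef]
        refine RootedOn.cat (S := Adh B m) ?_ (h.clique m (by omega)) (h.card m (by omega)) ?_
          (ih h0 (by omega)) hm
        · ext v
          exact ⟨fun hv => ⟨hv.2, hv.1⟩, fun hv => ⟨hv.2, hv.1⟩⟩
        · intro u hu hu' v hv hv' huv
          exact h.sep m (by omega) v u hv hv' hu hu' huv.symm
  have h1 := key n hn le_rfl
  have h2 : Bef B n = Set.univ := by
    ext v
    simp only [Set.mem_univ, iff_true]
    obtain ⟨t, ht, hv⟩ := h.cover v
    exact ⟨t, ht, hv⟩
  rw [h2] at h1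
  exact h1

/-- monotone in the class of pieces -/
theorem RootedOn.mono' {P Q : ∀ V : Type, SimpleGraph V → Set V → Prop} {G : SimpleGraph V}
    {W R : Set V} (h : RootedOn k P G W R)
    (hPQ : ∀ (B : Set V) (K : SimpleGraph B) (T : Set B), P B K T → Q B K T) :
    RootedOn k Q G W R := by
  obtain ⟨H, n, B, h⟩ := h
  exact ⟨H, n, B, h.le, h.pos, h.sub, h.cover, h.card, h.clique, h.sep, h.root,
    hPQ _ _ _ h.piece0, fun t h0 ht => hPQ _ _ _ (h.piece t h0 ht)⟩

end Vale.Agent.P235.K5.H281
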