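import Vale.Agent.P235.K5.H281.Cat
import Vale.Agent.P235.H56.MinTrans

set_option linter.all false

/-!
# Cuts with at most two vertices, three components behind three vertices (helper281)
-/

namespace Vale.Agent.P235.K5.H281

open SimpleGraph Vale.Agent.P235.K5 Vale.Agent.P235.H134 Vale.Agent.P235.H56

/-- the complete graph on `S` -/
def clq {V : Type} (S : Set V) : SimpleGraph V where
  Adj u v := u ≠ v ∧ u ∈ S ∧ v ∈ S
  symm := ⟨fun _ _ ⟨h, a, b⟩ => ⟨h.symm, b, a⟩⟩
  loopless := ⟨fun _ h => h.1 rfl⟩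

theorem conn_side {V : Type} {G : SimpleGraph V} (hG : G.Connected) {C S : Set V}
    (hN : ∀ u ∈ C, ∀ v, G.Adj u v → v ∈ C ∨ v ∈ S) (hS : S.Nonempty) :
    ((G ⊔ clq S).induce (C ∪ S)).Connected := by
  obtain ⟨s, hs⟩ := hS
  have key : ∀ (v w : V) (p : G.Walk v w) (hv : v ∈ C ∪ S) (hw : w ∈ S),
      ((G ⊔ clq S).induce (C ∪ S)).Reachable ⟨v, hv⟩ ⟨w, Or.inr hw⟩ := by
    intro v w p
    induction p with
    | nil => intro hv hw; exact Reachable.refl _
    | @cons a b c hab p ih =>
      intro hv hw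
      by_cases hb : b ∈ C ∪ S
      · exact (Adj.reachable (show ((G ⊔ clq S).induce (C ∪ S)).Adj ⟨a, hv⟩ ⟨b, hb⟩ from
          Or.inl hab)).trans (ih hb hw)
      · have haS : a ∈ S := by
          rcases hv with h | h
          · exact absurd (hN a h b hab) hb
          · exact h
        by_cases hac : a = c
        · subst hac; exact Reachable.refl _
        · exact Adj.reachable (show ((G ⊔ clq S).induce (C ∪ S)).Adj ⟨a, hv⟩ ⟨c, Or.inr hw⟩ from
            Or.inr ⟨hac, haS, hw⟩)
  have : Nonempty (C ∪ S : Set V) := ⟨⟨s, Or.inr hs⟩⟩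
  refine ⟨fun x y => ?_⟩
  obtain ⟨p⟩ := hG.preconnected x.1 s
  obtain ⟨q⟩ := hG.preconnected y.1 s
  exact (key _ _ p x.2 hs).trans (key _ _ q y.2 hs).symm

/-- the component of `c` in `G[C]` -/
theorem comp {V : Type} {G : SimpleGraph V} {C : Set V} {c : V} (hc : c ∈ C) :
    ∃ K : Set V, c ∈ K ∧ K ⊆ C ∧ (G.induce K).Connected ∧
      ∀ u ∈ K, ∀ v, G.Adj u v → v ∈ C → v ∈ K := by
  set K : Set V := {v | ∃ h : v ∈ C, (G.induce C).Reachable ⟨c, hc⟩ ⟨v, h⟩} with hK
  have hcK : c ∈ K := ⟨hc, Reachable.refl _⟩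
  have key : ∀ (a b : C) (p : (G.induce C).Walk a b) (ha : a.1 ∈ K) (hb : b.1 ∈ K),
      (G.induce K).Reachable ⟨a.1, ha⟩ ⟨b.1, hb⟩ := by
    intro a b p
    induction p with
    | nil => intro ha hb; exact Reachable.refl _
    | @cons x y z hxy p ih =>
      intro ha hb
      have hy : y.1 ∈ K := by
        obtain ⟨h1, h2⟩ := ha
        exact ⟨y.2, h2.trans (Adj.reachable hxy)⟩
      exact (Adj.reachable (show (G.induce K).Adj ⟨x.1, ha⟩ ⟨y.1, hy⟩ from hxy)).trans (ih hy hb)
  refine ⟨K, hcK, fun v hv => hv.1, ?_, ?_⟩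
  · have : Nonempty K := ⟨⟨c, hcK⟩⟩
    have h1 : ∀ x : K, (G.induce K).Reachable ⟨c, hcK⟩ x := by
      rintro ⟨x, hx⟩
      obtain ⟨hxC, ⟨p⟩⟩ := hx
      exact key _ _ p hcK ⟨hxC, ⟨p⟩⟩
    exact ⟨fun x y => (h1 x).symm.trans (h1 y)⟩
  · rintro u ⟨hu, hu'⟩ v huv hv
    exact ⟨hv, hu'.trans (Adj.reachable (show (G.induce C).Adj ⟨u, hu⟩ ⟨v, hv⟩ from huv))⟩

theorem conn_insert {V : Type} {G : SimpleGraph V} {K : Set V} {s : V}
    (hK : (G.induce K).Connected) (hs : ∃ u ∈ K, G.Adj u s) :
    (G.induce (insert s K)).Connected := by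
  obtain ⟨u, hu, hus⟩ := hs
  have h1 : ∀ x : (insert s K : Set V), (G.induce (insert s K)).Reachable ⟨u, Or.inr hu⟩ x := by
    rintro ⟨x, rfl | hx⟩
    · exact Adj.reachable (show G.Adj u x from hus)
    · exact (hK.preconnected ⟨u, hu⟩ ⟨x, hx⟩).map
        (induceHomOfLE G (Set.subset_insert s K)).toHom
  have : Nonempty (insert s K : Set V) := ⟨⟨s, Or.inl rfl⟩⟩
  exact ⟨fun x y => (h1 x).symm.trans (h1 y)⟩

/-- two further connected sets give a triangle -/
theorem minor3 {V : Type} {G : SimpleGraph V} {X K L : Set V} {s t w : V} (hs : s ∈ X)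
    (ht : t ∈ X) (hst : s ≠ t) (hK : (G.induce K).Connected) (hL : (G.induce L).Connected)
    (hKX : Disjoint K X) (hLX : Disjoint L X) (hKL : Disjoint K L)
    (hKs : ∃ u ∈ K, G.Adj u s) (hKt : ∃ u ∈ K, G.Adj u t) (hKw : ∃ u ∈ K, G.Adj u w)
    (hLt : ∃ u ∈ L, G.Adj u t) (hLw : ∃ u ∈ L, G.Adj u w) :
    IsMinor ((G ⊔ clq {s, t, w}).induce X) G := by
  classical
  set μ : X → Set V := fun x =>
    if x.1 = s then insert s K else if x.1 = t then insert t L else {x.1} with hμ
  have m1 : ∀ x : X, x.1 = s → μ x = insert s K := fun x h => by simp [hμ, h]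
  have m2 : ∀ x : X, x.1 = t → μ x = insert t L := fun x h => by
    simp [hμ, h, Ne.symm hst]
  have m3 : ∀ x : X, x.1 ≠ s → x.1 ≠ t → μ x = {x.1} := fun x h h' => by simp [hμ, h, h']
  have mem : ∀ x : X, x.1 ∈ μ x := by
    intro x
    by_cases h : x.1 = s
    · rw [m1 x h, h]; exact Or.inl rfl
    · by_cases h' : x.1 = t
      · rw [m2 x h', h']; exact Or.inl rfl
      · rw [m3 x h h']; rfl
  have cases' : ∀ (x : X) (v : V), v ∈ μ x → v = x.1 ∨ (x.1 = s ∧ v ∈ K) ∨ (x.1 = t ∧ v ∈ L) := by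
    intro x v hv
    by_cases h : x.1 = s
    · rw [m1 x h] at hv
      rcases hv with hv | hv
      · left; rw [hv, h]
      · right; left; exact ⟨h, hv⟩
    · by_cases h' : x.1 = t
      · rw [m2 x h'] at hv
        rcases hv with hv | hv
        · left; rw [hv, h']
        · right; right; exact ⟨h', hv⟩
      · rw [m3 x h h'] at hv
        left; exact hv
  refine ⟨μ, fun x => ?_, fun x y hxy => ?_, fun x y hxy => ?_⟩
  · by_cases h : x.1 = s
    · rw [m1 x h]
      exact conn_insert hK hKs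
    · by_cases h' : x.1 = t
      · rw [m2 x h']
        exact conn_insert hL hLt
      · rw [m3 x h h']
        exact conn_single G x.1
  · rw [Set.disjoint_left]
    intro v hv hv'
    have hne : x.1 ≠ y.1 := fun e => hxy (Subtype.ext e)
    rcases cases' x v hv with h | ⟨h, hv1⟩ | ⟨h, hv1⟩ <;>
      rcases cases' y v hv' with h' | ⟨h', hv2⟩ | ⟨h', hv2⟩
    · exact hne (h.symm.trans h')
    · exact Set.disjoint_left.1 hKX hv2 (h ▸ x.2)
    · exact Set.disjoint_left.1 hLX hv2 (h ▸ x.2)
    · exact Set.disjoint_left.1 hKX hv1 (h' ▸ y.2)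
    · exact hne (h.trans h'.symm)
    · exact Set.disjoint_left.1 hKL hv1 hv2
    · exact Set.disjoint_left.1 hLX hv1 (h' ▸ y.2)
    · exact Set.disjoint_left.1 hKL hv2 hv1
    · exact hne (h.trans h'.symm)
  · rcases hxy with h | ⟨hne, hx, hy⟩
    · exact ⟨x.1, mem x, y.1, mem y, h⟩
    · -- an edge of the triangle
      have key : ∀ a b : X, a.1 ≠ b.1 → a.1 ∈ ({s, t, w} : Set V) → b.1 ∈ ({s, t, w} : Set V) →
          (a.1 = s ∨ (a.1 = t ∧ b.1 ≠ s)) → ∃ x ∈ μ a, ∃ y ∈ μ b, G.Adj x y := by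
        rintro a b hab ha hb (h | ⟨h, hbs⟩)
        · have hb' : b.1 = t ∨ b.1 = w := by
            rcases hb with hb | hb | hb
            · exact absurd (h.trans hb.symm) hab
            · exact Or.inl hb
            · exact Or.inr hb
          rcases hb' with hb' | hb'
          · obtain ⟨u, hu, hadj⟩ := hKt
            exact ⟨u, by rw [m1 a h]; exact Or.inr hu, b.1, mem b, by rw [hb']; exact hadj⟩
          · obtain ⟨u, hu, hadj⟩ := hKw
            exact ⟨u, by rw [m1 a h]; exact Or.inr hu, b.1, mem b, by rw [hb']; exact hadj⟩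
        · have hb' : b.1 = w := by
            rcases hb with hb | hb | hb
            · exact absurd hb hbs
            · exact absurd (h.trans hb.symm) hab
            · exact hb
          obtain ⟨u, hu, hadj⟩ := hLw
          exact ⟨u, by rw [m2 a h]; exact Or.inr hu, b.1, mem b, by rw [hb']; exact hadj⟩
      have flip : (∃ p ∈ μ y, ∃ q ∈ μ x, G.Adj p q) → ∃ p ∈ μ x, ∃ q ∈ μ y, G.Adj p q := by
        rintro ⟨p, hp, q, hq, h⟩
        exact ⟨q, hq, p, hp, h.symm⟩
      by_cases h1 : x.1 = s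
      · exact key x y hne hx hy (Or.inl h1)
      · by_cases h2 : y.1 = s
        · exact flip (key y x (Ne.symm hne) hy hx (Or.inl h2))
        · by_cases h3 : x.1 = t
          · exact key x y hne hx hy (Or.inr ⟨h3, h2⟩)
          · by_cases h4 : y.1 = t
            · exact flip (key y x (Ne.symm hne) hy hx (Or.inr ⟨h4, h1⟩))
            · have hx' : x.1 = w := by
                rcases hx with h | h | h
                · exact absurd h h1
                · exact absurd h h3
                · exact h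
              have hy' : y.1 = w := by
                rcases hy with h | h | h
                · exact absurd h h2
                · exact absurd h h4
                · exact h
              exact absurd (hx'.trans hy'.symm) hne

/-- a further connected set gives an edge -/
theorem minor2 {V : Type} {G : SimpleGraph V} {X K : Set V} {s t : V} (hs : s ∈ X)
    (hK : (G.induce K).Connected) (hKX : Disjoint K X)
    (hKs : ∃ u ∈ K, G.Adj u s) (hKt : ∃ u ∈ K, G.Adj u t) :
    IsMinor ((G ⊔ clq {s, t}).induce X) G := by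
  classical
  set μ : X → Set V := fun x => if x.1 = s then insert s K else {x.1} with hμ
  have m1 : ∀ x : X, x.1 = s → μ x = insert s K := fun x h => by simp [hμ, h]
  have m3 : ∀ x : X, x.1 ≠ s → μ x = {x.1} := fun x h => by simp [hμ, h]
  have mem : ∀ x : X, x.1 ∈ μ x := by
    intro x
    by_cases h : x.1 = s
    · rw [m1 x h, h]; exact Or.inl rfl
    · rw [m3 x h]; rfl
  have cases' : ∀ (x : X) (v : V), v ∈ μ x → v = x.1 ∨ (x.1 = s ∧ v ∈ K) := by
    intro x v hv
    by_cases h : x.1 = s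
    · rw [m1 x h] at hv
      rcases hv with hv | hv
      · left; rw [hv, h]
      · right; exact ⟨h, hv⟩
    · rw [m3 x h] at hv
      left; exact hv
  refine ⟨μ, fun x => ?_, fun x y hxy => ?_, fun x y hxy => ?_⟩
  · by_cases h : x.1 = s
    · rw [m1 x h]
      exact conn_insert hK hKs
    · rw [m3 x h]
      exact conn_single G x.1
  · rw [Set.disjoint_left]
    intro v hv hv'
    have hne : x.1 ≠ y.1 := fun e => hxy (Subtype.ext e)
    rcases cases' x v hv with h | ⟨h, hv1⟩ <;>
      rcases cases' y v hv' with h' | ⟨h', hv2⟩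
    · exact hne (h.symm.trans h')
    · exact Set.disjoint_left.1 hKX hv2 (h ▸ x.2)
    · exact Set.disjoint_left.1 hKX hv1 (h' ▸ y.2)
    · exact hne (h.trans h'.symm)
  · rcases hxy with h | ⟨hne, hx, hy⟩
    · exact ⟨x.1, mem x, y.1, mem y, h⟩
    · obtain ⟨u, hu, hadj⟩ := hKt
      have hne' : x.1 ≠ y.1 := hne
      rcases hx with hx | hx <;> rcases hy with hy | hy
      · exact absurd (hx.trans hy.symm) hne'
      · exact ⟨u, by rw [m1 x hx]; exact Or.inr hu, y.1, mem y, by rw [show y.1 = t from hy]; exact hadj⟩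
      · exact ⟨x.1, mem x, u, by rw [m1 y hy]; exact Or.inr hu,
          by rw [show x.1 = t from hx]; exact hadj.symm⟩
      · exact absurd ((show x.1 = t from hx).trans (show y.1 = t from hy).symm) hne'

theorem minor1 {V : Type} {G : SimpleGraph V} {X : Set V} {s : V} :
    IsMinor ((G ⊔ clq {s}).induce X) G := by
  refine ⟨fun x => {x.1}, fun x => conn_single G x.1, fun x y hxy => ?_, fun x y hxy => ?_⟩
  · rw [Set.disjoint_left]
    intro v hv hv'
    exact hxy (Subtype.ext ((show v = x.1 from hv).symm.trans hv'))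
  · rcases hxy with h | ⟨hne, hx, hy⟩
    · exact ⟨x.1, rfl, y.1, rfl, h⟩
    · exact absurd ((show x.1 = s from hx).trans (show y.1 = s from hy).symm) hne

/-- a connected set behind `s`, `t` which touches both -/
theorem touch2 {V : Type} {G : SimpleGraph V} (h2 : Conn2 G) {C : Set V} {s t : V} (hst : s ≠ t)
    (hC : C.Nonempty) (hs : s ∉ C) (ht : t ∉ C)
    (hN : ∀ u ∈ C, ∀ v, G.Adj u v → v ∈ C ∨ v = s ∨ v = t) :
    ∃ K ⊆ C, (G.induce K).Connected ∧ (∃ u ∈ K, G.Adj u s) ∧ ∃ u ∈ K, G.Adj u t := by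
  obtain ⟨c, hc⟩ := hC
  obtain ⟨K, hcK, hKC, hK, hcl⟩ := comp (G := G) hc
  refine ⟨K, hKC, hK, ?_, ?_⟩
  · by_contra hno
    have hN' : ∀ u ∈ K, ∀ v, G.Adj u v → v ∈ K ∨ v = t := by
      intro u hu v huv
      rcases hN u (hKC hu) v huv with h | h | h
      · exact Or.inl (hcl u hu v huv h)
      · exact absurd ⟨u, hu, h ▸ huv⟩ hno
      · exact Or.inr h
    rcases h2 t K ⟨c, hcK⟩ (fun h => ht (hKC h)) hN' s with h | h
    · exact hs (hKC h)
    · exact hst h
  · by_contra hno
    have hN' : ∀ u ∈ K, ∀ v, G.Adj u v → v ∈ K ∨ v = s := by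
      intro u hu v huv
      rcases hN u (hKC hu) v huv with h | h | h
      · exact Or.inl (hcl u hu v huv h)
      · exact Or.inr h
      · exact absurd ⟨u, hu, h ▸ huv⟩ hno
    rcases h2 s K ⟨c, hcK⟩ (fun h => hs (hKC h)) hN' t with h | h
    · exact ht (hKC h)
    · exact hst h.symm

/-- a separation along a clique, both sides (with the clique) being connected proper minors -/
structure Cut {V : Type} (G : SimpleGraph V) (R X Y S : Set V) : Prop where
  union : X ∪ Y = Set.univ
  inter : X ∩ Y = S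
  root : R ⊆ X
  X_ne : ∃ v, v ∉ X
  Y_ne : ∃ v, v ∉ Y
  no : ∀ u ∈ X, u ∉ Y → ∀ v ∈ Y, v ∉ X → ¬ G.Adj u v
  minX : IsMinor ((G ⊔ clq S).induce X) G
  minY : IsMinor ((G ⊔ clq S).induce Y) G
  conX : ((G ⊔ clq S).induce X).Connected
  conY : ((G ⊔ clq S).induce Y).Connected

/-- one side of a cut `S` -/
theorem cut_of {V : Type} {G : SimpleGraph V} (hG : G.Connected) {R C D S : Set V}
    (hS : S.Nonempty) (hCD : Disjoint C D) (hCS : Disjoint C S) (hDS : Disjoint D S)
    (hU : C ∪ D ∪ S = Set.univ) (hC : C.Nonempty) (hD : D.Nonempty)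
    (hN : ∀ u ∈ C, ∀ v ∈ D, ¬ G.Adj u v) (hRC : Disjoint R C)
    (mC : IsMinor ((G ⊔ clq S).induce (C ∪ S)) G) (mD : IsMinor ((G ⊔ clq S).induce (D ∪ S)) G) :
    Cut G R (D ∪ S) (C ∪ S) S := by
  have hall : ∀ v, v ∈ C ∨ v ∈ D ∨ v ∈ S := by
    intro v
    have : v ∈ C ∪ D ∪ S := by rw [hU]; trivial
    rcases this with (h | h) | h
    · exact Or.inl h
    · exact Or.inr (Or.inl h)
    · exact Or.inr (Or.inr h)
  obtain ⟨c, hc⟩ := hC
  obtain ⟨d, hd⟩ := hD
  refine ⟨?_, ?_, ?_, ⟨c, ?_⟩, ⟨d, ?_⟩, ?_, mD, mC, ?_, ?_⟩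
  · ext v
    have := hall v
    simp only [Set.mem_union, Set.mem_univ, iff_true]
    tauto
  · ext v
    constructor
    · rintro ⟨h | h, h' | h'⟩
      · exact absurd h (Set.disjoint_left.1 hCD h')
      · exact h'
      · exact h
      · exact h
    · intro h
      exact ⟨Or.inr h, Or.inr h⟩
  · intro v hv
    rcases hall v with h | h | h
    · exact absurd h (Set.disjoint_left.1 hRC hv)
    · exact Or.inl h
    · exact Or.inr h
  · rintro (h | h)
    · exact Set.disjoint_left.1 hCD hc h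
    · exact Set.disjoint_left.1 hCS hc h
  · rintro (h | h)
    · exact Set.disjoint_left.1 hCD h hd
    · exact Set.disjoint_left.1 hDS hd h
  · rintro u hu hu' v hv hv' huv
    have h1 : u ∈ D := hu.resolve_right fun h => hu' (Or.inr h)
    have h2 : v ∈ C := hv.resolve_right fun h => hv' (Or.inr h)
    exact hN v h2 u h1 huv.symm
  · refine conn_side hG (fun u hu v huv => ?_) hS
    rcases hall v with h | h | h
    · exact absurd huv.symm (hN v h u hu)
    · exact Or.inl h
    · exact Or.inr h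
  · refine conn_side hG (fun u hu v huv => ?_) hS
    rcases hall v with h | h | h
    · exact Or.inl h
    · exact absurd huv (hN u hu v h)
    · exact Or.inr h

/-- the cut, on the side where the clique `R` lies -/
theorem cut_or {V : Type} {G : SimpleGraph V} (hG : G.Connected) {R C D S : Set V}
    (hR : ∀ u ∈ R, ∀ v ∈ R, u ≠ v → G.Adj u v)
    (hS : S.Nonempty) (hCD : Disjoint C D) (hCS : Disjoint C S) (hDS : Disjoint D S)
    (hU : C ∪ D ∪ S = Set.univ) (hC : C.Nonempty) (hD : D.Nonempty)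
    (hN : ∀ u ∈ C, ∀ v ∈ D, ¬ G.Adj u v)
    (mC : IsMinor ((G ⊔ clq S).induce (C ∪ S)) G) (mD : IsMinor ((G ⊔ clq S).induce (D ∪ S)) G) :
    ∃ X Y, Cut G R X Y S := by
  by_cases h : Disjoint R C
  · exact ⟨_, _, cut_of hG hS hCD hCS hDS hU hC hD hN h mC mD⟩
  · have h' : Disjoint R D := by
      rw [Set.not_disjoint_iff] at h
      obtain ⟨r, hr, hrC⟩ := h
      rw [Set.disjoint_left]
      intro v hv hvD
      have hne : r ≠ v := by
        rintro rfl
        exact Set.disjoint_left.1 hCD hrC hvD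
      exact hN r hrC v hvD (hR r hr v hv hne)
    refine ⟨_, _, cut_of hG hS hCD.symm hDS hCS ?_ hD hC
      (fun u hu v hv huv => hN v hv u hu huv.symm) h' mD mC⟩
    rw [← hU]
    ext v
    simp only [Set.mem_union]
    tauto

/-- **[W-LOW]** a connected graph which is not 3-connected has a cut with at most two vertices
both of whose sides, with the edge between the two vertices, are minors. -/
theorem low {V : Type} {G : SimpleGraph V} (hG : G.Connected) (h3 : ¬ Conn3 G) {R : Set V}
    (hR : ∀ u ∈ R, ∀ v ∈ R, u ≠ v → G.Adj u v) :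
    ∃ X Y S : Set V, S.ncard ≤ 2 ∧ Cut G R X Y S := by
  classical
  by_cases h2 : Conn2 G
  · unfold Conn3 at h3
    push Not at h3
    obtain ⟨s, t, C, hC, hs, ht, hN, y, hyC, hys, hyt⟩ := h3
    have hst : s ≠ t := by
      rintro rfl
      have hN' : ∀ u ∈ C, ∀ v, G.Adj u v → v ∈ C ∨ v = s := by
        intro u hu v huv
        rcases hN u hu v huv with h | h | h
        · exact Or.inl h
        · exact Or.inr h
        · exact Or.inr h
      rcases h2 s C hC hs hN' y with h | h
      · exact hyC h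
      · exact hys h
    set D : Set V := {v | v ∉ C ∧ v ≠ s ∧ v ≠ t} with hD
    have hND : ∀ u ∈ D, ∀ v, G.Adj u v → v ∈ D ∨ v = s ∨ v = t := by
      rintro u ⟨h1, h1s, h1t⟩ v huv
      by_cases hvs : v = s
      · exact Or.inr (Or.inl hvs)
      · by_cases hvt : v = t
        · exact Or.inr (Or.inr hvt)
        · refine Or.inl ⟨fun hvC => ?_, hvs, hvt⟩
          rcases hN v hvC u huv.symm with h | h | h
          · exact h1 h
          · exact h1s h
          · exact h1t h
    have hDne : D.Nonempty := ⟨y, hyC, hys, hyt⟩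
    obtain ⟨K, hKC, hK, hKs, hKt⟩ := touch2 h2 hst hC hs ht hN
    obtain ⟨L, hLD, hL, hLs, hLt⟩ := touch2 h2 hst hDne (fun h => h.2.1 rfl) (fun h => h.2.2 rfl)
      hND
    have hCD : Disjoint C D := Set.disjoint_left.2 fun v hv hv' => hv'.1 hv
    have hCS : Disjoint C {s, t} := by
      rw [Set.disjoint_left]
      rintro v hv (rfl | h)
      · exact hs hv
      · exact ht ((show v = t from h) ▸ hv)
    have hDS : Disjoint D {s, t} := by
      rw [Set.disjoint_left]
      rintro v hv (h | h)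
      · exact hv.2.1 h
      · exact hv.2.2 h
    have hU : C ∪ D ∪ {s, t} = Set.univ := by
      ext v
      simp only [Set.mem_union, Set.mem_univ, iff_true, Set.mem_insert_iff, Set.mem_singleton_iff]
      by_cases h1 : v ∈ C
      · exact Or.inl (Or.inl h1)
      · by_cases h2' : v = s
        · exact Or.inr (Or.inl h2')
        · by_cases h3' : v = t
          · exact Or.inr (Or.inr h3')
          · exact Or.inl (Or.inr ⟨h1, h2', h3'⟩)
    have hno : ∀ u ∈ C, ∀ v ∈ D, ¬ G.Adj u v := by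
      intro u hu v hv huv
      rcases hN u hu v huv with h | h | h
      · exact hv.1 h
      · exact hv.2.1 h
      · exact hv.2.2 h
    have hLX : Disjoint L (C ∪ {s, t}) := by
      rw [Set.disjoint_left]
      rintro v hv (h | h)
      · exact Set.disjoint_left.1 hCD h (hLD hv)
      · exact Set.disjoint_left.1 hDS (hLD hv) h
    have hKX : Disjoint K (D ∪ {s, t}) := by
      rw [Set.disjoint_left]
      rintro v hv (h | h)
      · exact Set.disjoint_left.1 hCD (hKC hv) h
      · exact Set.disjoint_left.1 hCS (hKC hv) h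
    obtain ⟨X, Y, h⟩ := cut_or (S := {s, t}) hG hR ⟨s, Or.inl rfl⟩ hCD hCS hDS hU hC hDne hno
      (minor2 (Or.inr (Or.inl rfl)) hL hLX hLs hLt) (minor2 (Or.inr (Or.inl rfl)) hK hKX hKs hKt)
    exact ⟨X, Y, {s, t}, (Set.ncard_pair hst).le, h⟩
  · unfold Conn2 at h2
    push Not at h2
    obtain ⟨s, C, hC, hs, hN, y, hyC, hys⟩ := h2
    set D : Set V := {v | v ∉ C ∧ v ≠ s} with hD
    have hU : C ∪ D ∪ {s} = Set.univ := by
      ext v
      simp only [Set.mem_union, Set.mem_univ, iff_true, Set.mem_singleton_iff]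
      by_cases h1 : v ∈ C
      · exact Or.inl (Or.inl h1)
      · by_cases h2' : v = s
        · exact Or.inr h2'
        · exact Or.inl (Or.inr ⟨h1, h2'⟩)
    have hno : ∀ u ∈ C, ∀ v ∈ D, ¬ G.Adj u v := by
      intro u hu v hv huv
      rcases hN u hu v huv with h | h
      · exact hv.1 h
      · exact hv.2 h
    obtain ⟨X, Y, h⟩ := cut_or (S := {s}) (C := C) (D := D) hG hR ⟨s, rfl⟩
      (Set.disjoint_left.2 fun v hv hv' => hv'.1 hv)
      (Set.disjoint_left.2 fun v hv hv' => hs ((show v = s from hv') ▸ hv))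
      (Set.disjoint_left.2 fun v hv hv' => hv.2 hv') hU hC ⟨y, hyC, hys⟩ hno minor1 minor1
    exact ⟨X, Y, {s}, by simp, h⟩

end Vale.Agent.P235.K5.H281
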